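import Vale.Agent.P269CS.Gen
import Mathlib.Analysis.SpecialFunctions.Elliptic.Weierstrass

/-!
# Smooth curves of genus zero and one: isomorphisms
-/

set_option linter.unusedSectionVars false

open scoped Topology Manifold ContDiff
open Set Filter

noncomputable section

namespace Vale.Agent.P269CS

open Vale.Agent.P247C Vale.Agent.P247C.RT Vale.Agent.P247C.RSp Vale.Agent.P247B
open Vale.Agent.P273.H183
open Vale.Agent.P273SD (HolF)
open Vale.Agent.P269C (Df Bas Iso)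

section abs

variable {M M' : Type} [TopologicalSpace M] [ChartedSpace ℂ M] [IsManifold 𝓘(ℂ) 1 M]
  [TopologicalSpace M'] [ChartedSpace ℂ M'] [IsManifold 𝓘(ℂ) 1 M']

theorem hol_map {ψ : M → M'} (h : MDifferentiable 𝓘(ℂ) 𝓘(ℂ) ψ) {G : M' → ℂ} {p : M}
    (hG : Hol G (ψ p)) : Hol (fun y => G (ψ y)) p :=
  (h.continuous.continuousAt.eventually hG).mono fun y hy => hy.comp y (h y)

theorem dM_ne_of_inj {σ : ℂ → M} {z : ℂ} (h : HolAt σ z) {V : Set ℂ} (hV : V ∈ 𝓝 z)
    (hi : InjOn σ V) : dM σ z ≠ 0 := by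
  have he := chart_mem_atlas ℂ (σ z)
  have hm := mem_chart_source ℂ (σ z)
  have a1 : Hol (chartAt ℂ (σ z) ∘ σ) z := (an_of_hol h (hol_chart he hm)).eventually_analyticAt.mono
    fun _ hw => hw.differentiableAt.mdifferentiableAt
  have a2 := d1_ne_of_inj a1 (inter_mem hV (h.self.continuousAt
    ((chartAt ℂ (σ z)).open_source.mem_nhds hm))) fun x hx y hy e =>
      hi hx.1 hy.1 ((chartAt ℂ (σ z)).injOn hx.2 hy.2 e)
  rw [d1_comp (hol_chart he hm).self h.self] at a2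
  exact right_ne_zero_of_mul a2

/-- a uniformisation by a lattice -/
structure UM (P : PeriodPair) (u : ℂ → M) : Prop where
  hol : ∀ z, HolAt u z
  sur : Function.Surjective u
  ker : ∀ z w, u z = u w ↔ z - w ∈ P.lattice

variable {P P' : PeriodPair} {u : ℂ → M} {u' : ℂ → M'}

theorem UM.ne (h : UM P u) (z : ℂ) : dM u z ≠ 0 := by
  obtain ⟨r, hr, h1⟩ := Metric.mem_nhds_iff.1 (P.compl_lattice_sdiff_singleton_mem_nhds 0)
  refine dM_ne_of_inj (h.hol z) (Metric.ball_mem_nhds z (half_pos hr)) fun x hx y hy e => ?_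
  by_contra c
  refine h1 (show x - y ∈ Metric.ball 0 r from ?_) ⟨(h.ker x y).1 e, sub_ne_zero.2 c⟩
  rw [mem_ball_zero_iff, ← dist_eq_norm]
  exact (dist_triangle_right x y z).trans_lt (by linarith [Metric.mem_ball.1 hx, Metric.mem_ball.1 hy])

theorem dM_shift {σ : ℂ → M} (h : ∀ z, HolAt σ z) {l : ℂ} (e : ∀ z, σ (z + l) = σ z) (z : ℂ) :
    dM σ (z + l) = dM σ z := by
  have := dM_comp (σ := σ) (ζ := fun w => w + l) (z := z) (h _).self (by fun_prop)
  rw [show (σ ∘ fun w => w + l) = σ from funext e] at this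
  simpa using this.symm

theorem UM.dM_eq (h : UM P u) {z w : ℂ} (e : u z = u w) : dM u z = dM u w := by
  have := dM_shift h.hol (l := z - w) (fun t => (h.ker _ _).2 (by simpa using (h.ker z w).1 e)) w
  rwa [add_sub_cancel] at this

theorem UM.map (h : UM P u) (h' : UM P' u') {c : ℂ} (hc : c ≠ 0)
    (hl : ∀ z, z ∈ P.lattice ↔ c * z ∈ P'.lattice) : ∃ φ : M → M',
      MDifferentiable 𝓘(ℂ) 𝓘(ℂ) φ ∧ Function.Bijective φ ∧ ∀ z, φ (u z) = u' (c * z) := by
  have k : ∀ z w, u' (c * z) = u' (c * w) ↔ u z = u w := fun z w => by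
    rw [h.ker, h'.ker, hl, mul_sub]
  have e : ∀ z, u' (c * Function.surjInv h.sur (u z)) = u' (c * z) := fun z =>
    (k _ _).2 (Function.surjInv_eq h.sur _)
  refine ⟨fun m => u' (c * Function.surjInv h.sur m), fun m => ?_, ⟨fun x y g => ?_, fun y => ?_⟩, e⟩
  · obtain ⟨z, rfl⟩ := h.sur m
    obtain ⟨a1, a2, -⟩ := ch_facts (u z)
    obtain ⟨ζ, b1, b2, b3⟩ := fac a1 (h.hol z) a2 (h.ne z)
    have hm := mem_chart_source ℂ (u z)
    have c1 := ((hol_chart (chart_mem_atlas ℂ _) hm).comp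
      (g := fun t => c * ζ t) (analyticAt_const.mul b1)).self
    refine ((h'.hol _).self.comp _ c1).congr_of_eventuallyEq ?_
    filter_upwards [((chartAt ℂ (u z)).continuousAt hm).eventually b3,
      (chartAt ℂ (u z)).open_source.mem_nhds hm] with y d1 d2
    rw [(chartAt ℂ (u z)).left_inv d2] at d1
    exact (congrArg (fun t => u' (c * Function.surjInv h.sur t)) d1).trans (e _)
  · rw [← Function.surjInv_eq h.sur x, ← Function.surjInv_eq h.sur y]
    exact (k _ _).1 g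
  · obtain ⟨w, rfl⟩ := h'.sur y
    exact ⟨u (c⁻¹ * w), (e _).trans (by rw [mul_inv_cancel_left₀ hc])⟩

theorem UM.of_map [T2Space M'] (h : UM P u) (h' : UM P' u') {φ : M → M'}
    (h1 : MDifferentiable 𝓘(ℂ) 𝓘(ℂ) φ) (h0 : φ (u 0) = u' 0) : ∃ c, ∀ z, φ (u z) = u' (c * z) := by
  have hs : ∀ z, HolAt (φ ∘ u) z := fun z => (h.hol z).mono fun w hw => (h1 _).comp w hw
  let k : ℂ → ℂ := fun z => dM (φ ∘ u) z / dM u' (Function.surjInv h'.sur (φ (u z)))
  have key : ∀ z z', φ (u z) = u' z' → ∃ ζ : ℂ → ℂ, AnalyticAt ℂ ζ z ∧ ζ z = z' ∧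
      (φ ∘ u =ᶠ[𝓝 z] u' ∘ ζ) ∧ k =ᶠ[𝓝 z] deriv ζ := by
    intro z z' e
    obtain ⟨ζ, a1, a2, a3⟩ := fac (hs z) (h'.hol z') e (h'.ne z')
    refine ⟨ζ, a1, a2, a3, ?_⟩
    filter_upwards [a3.eventually_nhds, a1.eventually_analyticAt] with t b1 b2
    have b3 : u' (Function.surjInv h'.sur (φ (u t))) = u' (ζ t) :=
      (Function.surjInv_eq h'.sur _).trans b1.self_of_nhds
    simp only [k]
    rw [dM_congr b1, dM_comp (h'.hol _).self b2.differentiableAt, h'.dM_eq b3,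
      mul_div_cancel_left₀ _ (h'.ne _)]
  have hk : Differentiable ℂ k := fun z => by
    obtain ⟨ζ, a1, -, -, a2⟩ := key z _ (Function.surjInv_eq h'.sur _).symm
    exact a1.deriv.differentiableAt.congr_of_eventuallyEq a2
  obtain ⟨c, hc⟩ := hk.exists_const_forall_eq_of_bounded
    (IsZLattice.isCompact_range_of_periodic P.lattice k hk.continuous fun z w hw => by
      have e : ∀ t, u (t + w) = u t := fun t => (h.ker _ _).2 (by simpa using hw)
      simp only [k]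
      rw [dM_shift hs (fun t => congrArg φ (e t)), e]).isBounded
  have hu : Continuous u := continuous_iff_continuousAt.2 fun z => (h.hol z).self.continuousAt
  have hu' : Continuous u' := continuous_iff_continuousAt.2 fun z => (h'.hol z).self.continuousAt
  have hC : IsClopen {z | φ (u z) = u' (c * z)} := by
    refine ⟨isClosed_eq (h1.continuous.comp hu) (hu'.comp (continuous_const_mul c)),
      isOpen_iff_mem_nhds.2 fun z hz => ?_⟩
    obtain ⟨ζ, a1, a2, a3, a4⟩ := key z _ hz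
    obtain ⟨r, hr, b1⟩ := Metric.eventually_nhds_iff_ball.1 (a1.eventually_analyticAt.and a4)
    filter_upwards [a3, Metric.ball_mem_nhds z hr] with t b2 b3
    have d : ∀ x ∈ Metric.ball z r, HasDerivAt (fun x => ζ x - c * x) 0 x := fun x hx => by
      have := (b1 x hx).1.differentiableAt.hasDerivAt.fun_sub ((hasDerivAt_id' x).const_mul c)
      rwa [← (b1 x hx).2, hc, mul_one, sub_self] at this
    have := Metric.isOpen_ball.is_const_of_deriv_eq_zero (convex_ball z r).isPreconnected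
      (fun x hx => (d x hx).differentiableAt.differentiableWithinAt) (fun x hx => (d x hx).deriv)
      b3 (Metric.mem_ball_self hr)
    rw [a2, sub_self, sub_eq_zero] at this
    exact b2.trans (congrArg u' this)
  exact ⟨c, eq_univ_iff_forall.1 (hC.eq_univ ⟨0, h0.trans (congrArg u' (mul_zero c).symm)⟩)⟩

variable [T2Space M] [CompactSpace M] [ConnectedSpace M]

theorem exists_um {θ : M → ℂ} (hθ : HolForm θ) (h0 : ∀ m, θ m ≠ 0) (p : M) :
    ∃ (P : PeriodPair) (u : ℂ → M), UM P u ∧ u 0 = p := by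
  obtain ⟨u, τ, h1, h2, -, h4, h5⟩ := torus0 (th := θ) (fun m => hθ _ _ (ch_facts m).1) h0
  obtain ⟨z₀, rfl⟩ := h4 p
  refine ⟨⟨1, τ, LinearIndependent.pair_iff.2 fun s t e => ?_⟩, fun z => u (z + z₀),
    ⟨fun z => .of_forall fun w => (h2 _).comp w
      (differentiableAt_id.add_const z₀).mdifferentiableAt, fun m => ?_, fun z w => ?_⟩,
    congrArg u (zero_add _)⟩
  · have e1 : t = 0 := by simpa [h1.ne'] using congrArg Complex.im e
    exact ⟨by simpa [e1] using e, e1⟩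
  · obtain ⟨z, rfl⟩ := h4 m
    exact ⟨z - z₀, congrArg u (sub_add_cancel _ _)⟩
  · rw [eq_comm, h5, PeriodPair.mem_lattice]
    exact exists₂_congr fun a b => ⟨fun e => by linear_combination -e,
      fun e => by linear_combination -e⟩

variable [T2Space M'] [CompactSpace M'] [ConnectedSpace M'] {f G : M → ℂ} {a : M} {f' G' : M' → ℂ}
  {a' : M'}

theorem pole_norm (h : Pole f G a) {x y : M} (hx : x ≠ a) (hy : y ≠ a) (hxy : x ≠ y) :
    ∃ f G : M → ℂ, Pole f G a ∧ f x = 0 ∧ f y = 1 := by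
  have h0 : f y - f x ≠ 0 := sub_ne_zero.2 fun e => hxy (pole_inj h hy hx e).symm
  refine ⟨_, _, pole_aff h (inv_ne_zero h0) (-((f y - f x)⁻¹ * f x)), add_neg_cancel _, ?_⟩
  rw [← sub_eq_add_neg, ← mul_sub, inv_mul_cancel₀ h0]

theorem pole_map (h : Pole f G a) (h' : Pole f' G' a') : ∃ φ : M → M',
    MDifferentiable 𝓘(ℂ) 𝓘(ℂ) φ ∧ Function.Bijective φ ∧ φ a = a' ∧
      ∀ y, y ≠ a → φ y ≠ a' ∧ f' (φ y) = f y := by
  classical
  choose v hv using fun w => (pole_bij h' w).exists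
  let φ : M → M' := fun y => if y = a then a' else v (f y)
  have e0 : φ a = a' := if_pos rfl
  have e1 : ∀ y, y ≠ a → φ y ≠ a' ∧ f' (φ y) = f y := fun y hy => by
    rw [show φ y = v (f y) from if_neg hy]
    exact hv _
  refine ⟨φ, fun p => ?_, ⟨fun x y e => ?_, fun q => ?_⟩, e0, e1⟩
  · by_cases hp : p = a
    · subst hp
      obtain ⟨γ, b1, b2, -⟩ := h'.hG.inverse h'.G1
      have t : Tendsto G (𝓝 p) (𝓝 (G' a')) := by
        rw [h'.G0, ← h.G0]; exact h.hG.self.continuousAt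
      have t' : Tendsto γ (𝓝 (G' a')) (𝓝 a') := by
        have := b2.self_of_nhds.1.continuousAt
        rwa [ContinuousAt, b1] at this
      refine (((h'.G0.trans h.G0.symm) ▸ b2.self_of_nhds.1 :
        MDifferentiableAt 𝓘(ℂ) 𝓘(ℂ) γ (G p)).comp p h.hG.self).congr_of_eventuallyEq ?_
      filter_upwards [t.eventually b2, (t'.comp t).eventually
        (eventually_nhdsWithin_iff.1 (pole_mul h')),
        eventually_nhdsWithin_iff.1 ((pole_mul h).and h.G_ne)] with y c1 c2 c3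
      by_cases hy : y = p
      · rw [hy, e0, Function.comp_apply, h.G0, ← h'.G0, b1]
      · have n : γ (G y) ≠ a' := fun g => (c3 hy).2 (by rw [← c1.2, g, h'.G0])
        have c4 : G' (γ (G y)) * f' (γ (G y)) = 1 := c2 n
        rw [c1.2] at c4
        exact pole_inj h' (e1 y hy).1 n ((e1 y hy).2.trans
          (mul_left_cancel₀ (c3 hy).2 ((c3 hy).1.trans c4.symm)))
    · obtain ⟨γ, b1, b2, -⟩ := (h'.hf _ (e1 p hp).1).inverse (pole_d1 h' (e1 p hp).1)
      rw [(e1 p hp).2] at b1 b2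
      have t := (h.hf p hp).self.continuousAt
      refine (b2.self_of_nhds.1.comp p (h.hf p hp).self).congr_of_eventuallyEq ?_
      filter_upwards [t.eventually b2, (b2.self_of_nhds.1.continuousAt.comp t).eventually_ne
        (b1.symm ▸ (e1 p hp).1 : γ (f p) ≠ a'), isOpen_ne.eventually_mem hp] with y c1 c2 c3
      exact pole_inj h' (e1 y c3).1 c2 ((e1 y c3).2.trans c1.2.symm)
  · by_cases hx : x = a <;> by_cases hy : y = a
    · rw [hx, hy]
    · exact absurd (e.symm.trans (hx ▸ e0)) (e1 y hy).1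
    · exact absurd (e.trans (hy ▸ e0)) (e1 x hx).1
    · exact pole_inj h hx hy ((e1 x hx).2.symm.trans ((congrArg f' e).trans (e1 y hy).2))
  · by_cases hq : q = a'
    · exact ⟨a, e0.trans hq.symm⟩
    · obtain ⟨y, b1, b2⟩ := (pole_bij h (f' q)).exists
      exact ⟨y, pole_inj h' (e1 y b1).1 hq ((e1 y b1).2.trans b2)⟩

theorem pole_uniq (h : Pole f G a) (h' : Pole f' G' a') {ψ : M → M'}
    (h1 : MDifferentiable 𝓘(ℂ) 𝓘(ℂ) ψ) (h2 : Function.Injective ψ) (h3 : ψ a = a') :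
    ∃ c d, ∀ y, y ≠ a → f' (ψ y) = c * f y + d := by
  subst h3
  obtain ⟨γ, -, -, b3⟩ := h'.hG.inverse h'.G1
  have a1 := hol_map h1 h'.hG
  have a2 := d1_ne_of_inj a1 (h1.continuous.continuousAt.eventually b3) fun x hx y hy e =>
    h2 (hx.symm.trans ((congrArg γ e).trans hy))
  obtain ⟨K, c1, c2, c3⟩ := hol_div a1 h.hG h.G1
  have c4 : K a ≠ 0 := left_ne_zero_of_mul (c2 ▸ a2)
  refine pole_lin h (fun y hy => hol_map h1 (h'.hf _ (h2.ne hy))) (c1.inv c4) ?_
  filter_upwards [mem_nhdsWithin_of_mem_nhds c3, pole_mul h, mem_nhdsWithin_of_mem_nhds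
    (h1.continuous.continuousAt.eventually (eventually_nhdsWithin_iff.1 (pole_mul h'))),
    mem_nhdsWithin_of_mem_nhds (c1.self.continuousAt.eventually_ne c4), self_mem_nhdsWithin]
    with y d1 d2 d3 d4 d5
  have d6 : G' (ψ y) * f' (ψ y) = 1 := d3 (h2.ne d5)
  rw [d1, h'.G0, h.G0] at d6
  rw [eq_inv_mul_iff_mul_eq₀ d4]
  linear_combination f y * d6 - K y * f' (ψ y) * d2

end abs

variable {L : Type} {m m' : ℕ} {C : Fam L m} {b : Fin m → ℂ} {C' : Fam L m'} {b' : Fin m' → ℂ}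

/-- **Smooth curves of genus zero with three marked points are uniquely isomorphic.** -/
theorem iso0 {C : Fam (Fin 3) m} {C' : Fam (Fin 3) m'} (hC : C.IsStable) (hb : b ∈ C.B)
    (hs : P269C.Sm C b) (hC' : C'.IsStable) (hb' : b' ∈ C'.B) (hs' : P269C.Sm C' b')
    {e : Fin 0 → Df C} (he : Bas C b e) {e' : Fin 0 → Df C'} (he' : Bas C' b' e') :
    ∃! Φ, Φ ∈ Iso C b C' b' := by
  let h := smo_of_sm hC hb hs
  let h' := smo_of_sm hC' hb' hs'
  obtain ⟨_, _, p⟩ := pole0 he (mk h 2)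
  obtain ⟨_, _, p'⟩ := pole0 he' (mk h' 2)
  have n0 := (mk_inj (h := h)).ne (show (0 : Fin 3) ≠ 2 by decide)
  have n1 := (mk_inj (h := h)).ne (show (1 : Fin 3) ≠ 2 by decide)
  have n0' := (mk_inj (h := h')).ne (show (0 : Fin 3) ≠ 2 by decide)
  have n1' := (mk_inj (h := h')).ne (show (1 : Fin 3) ≠ 2 by decide)
  obtain ⟨f, G, q, a0, a1⟩ := pole_norm p n0 n1 (mk_inj.ne (by decide))
  obtain ⟨f', G', q', a0', a1'⟩ := pole_norm p' n0' n1' (mk_inj.ne (by decide))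
  obtain ⟨φ, b1, b2, b3, b4⟩ := pole_map q q'
  refine ⟨_, iso_of b1 b2 fun i => ?_, fun Ψ hΨ => ?_⟩
  · match i with
    | 0 => exact pole_inj q' (b4 _ n0).1 n0' ((b4 _ n0).2.trans (a0.trans a0'.symm))
    | 1 => exact pole_inj q' (b4 _ n1).1 n1' ((b4 _ n1).2.trans (a1.trans a1'.symm))
    | 2 => exact b3
  · obtain ⟨ψ, c1, c2, c3, c4⟩ := of_iso (h := h) (h' := h') hΨ
    obtain ⟨c, d, k⟩ := pole_uniq q q' c1 c2.1 (c3 2)
    have k0 := k _ n0
    have k1 := k _ n1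
    rw [c3, a0, a0', mul_zero, zero_add] at k0
    rw [c3, a1, a1', mul_one, ← k0, add_zero] at k1
    refine funext fun y : Fb h => (c4 y).symm.trans (congrArg Subtype.val (?_ : ψ y = φ y))
    by_cases hy : y = mk h 2
    · rw [hy, c3, b3]
    · refine pole_inj q' (c3 2 ▸ c2.1.ne hy) (b4 y hy).1 ?_
      rw [k y hy, ← k0, ← k1, one_mul, add_zero, (b4 y hy).2]

/-- `u` is a uniformisation of the fibre over `b` by the lattice `P`. -/
structure Unif (C : Fam L m) (b : Fin m → ℂ) (P : PeriodPair) (u : ℂ → C.X) : Prop where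
  hol : ∀ z, HolF C b u z
  sur : ∀ p ∈ C.fib b, ∃ z, u z = p
  ker : ∀ z w, u z = u w ↔ z - w ∈ P.lattice

variable {P P' : PeriodPair} {u : ℂ → C.X} {u' : ℂ → C'.X}

/-- the uniformisation as a map to the Riemann surface -/
def Unif.lf (hu : Unif C b P u) (h : Smo C b) (z : ℂ) : Fb h := ⟨u z, (hu.hol z).mem⟩

theorem Unif.um (hu : Unif C b P u) (h : Smo C b) : UM P (hu.lf h) :=
  ⟨fun z => holAt_of (hu.hol z), fun p => (hu.sur p.1 p.2).imp fun _ e => Subtype.ext e,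
    fun z w => Subtype.ext_iff.trans (hu.ker z w)⟩

/-- **Smooth curves of genus one are tori.** -/
theorem unif1 (hC : C.IsStable) (hb : b ∈ C.B) (hs : P269C.Sm C b) {e : Fin 1 → Df C}
    (he : Bas C b e) {p : C.X} (hp : p ∈ C.fib b) :
    ∃ (P : PeriodPair) (u : ℂ → C.X), Unif C b P u ∧ u 0 = p := by
  obtain ⟨P, u, a1, a2⟩ := exists_um (M := Fb (smo_of_sm hC hb hs)) (holForm_th (he.1 0))
    (th_ne he) ⟨p, hp⟩
  exact ⟨P, fun z => (u z).1, ⟨fun z => holF_of (a1.hol z), fun q hq =>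
    (a1.sur ⟨q, hq⟩).imp fun _ e => congrArg Subtype.val e,
    fun z w => Subtype.ext_iff.symm.trans (a1.ker z w)⟩, congrArg Subtype.val a2⟩

theorem Unif.iso (hu : Unif C b P u) (hu' : Unif C' b' P' u') (hC : C.IsStable) (hb : b ∈ C.B)
    (hs : P269C.Sm C b) (hC' : C'.IsStable) (hb' : b' ∈ C'.B) (hs' : P269C.Sm C' b') {c : ℂ}
    (hc : c ≠ 0) (hl : ∀ z, z ∈ P.lattice ↔ c * z ∈ P'.lattice)
    (hm : ∀ i, ∃ z, u z = C.s i b ∧ u' (c * z) = C'.s i b') :
    ∃ Φ ∈ Iso C b C' b', ∀ z, Φ ⟨u z, (hu.hol z).mem⟩ = u' (c * z) := by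
  obtain ⟨φ, a1, a2, a3⟩ := (hu.um (smo_of_sm hC hb hs)).map (hu'.um (smo_of_sm hC' hb' hs')) hc hl
  refine ⟨_, iso_of a1 a2 fun i => ?_, fun z => congrArg Subtype.val (a3 z)⟩
  obtain ⟨z, b1, b2⟩ := hm i
  exact (congrArg φ (Subtype.ext b1.symm)).trans ((a3 z).trans (Subtype.ext b2))

theorem Unif.of_iso (hu : Unif C b P u) (hu' : Unif C' b' P' u') (hC : C.IsStable) (hb : b ∈ C.B)
    (hs : P269C.Sm C b) (hC' : C'.IsStable) (hb' : b' ∈ C'.B) (hs' : P269C.Sm C' b')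
    {Φ : C.fib b → C'.X} (hΦ : Φ ∈ Iso C b C' b') (h0 : Φ ⟨u 0, (hu.hol 0).mem⟩ = u' 0) :
    ∃ c : ℂ, c ≠ 0 ∧ (∀ z, z ∈ P.lattice ↔ c * z ∈ P'.lattice) ∧
      ∀ z, Φ ⟨u z, (hu.hol z).mem⟩ = u' (c * z) := by
  obtain ⟨φ, a1, a2, -, a4⟩ := P269CS.of_iso (h := smo_of_sm hC hb hs)
    (h' := smo_of_sm hC' hb' hs') hΦ
  obtain ⟨c, hc⟩ := (hu.um _).of_map (hu'.um _) a1 (Subtype.ext ((a4 _).trans h0))
  have k : ∀ z, z ∈ P.lattice ↔ c * z ∈ P'.lattice := fun z => by
    have k1 := (hu.um (smo_of_sm hC hb hs)).ker z 0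
    have k2 := (hu'.um (smo_of_sm hC' hb' hs')).ker (c * z) (c * 0)
    rw [← hc, ← hc, a2.1.eq_iff, k1, mul_zero, sub_zero, sub_zero] at k2
    exact k2
  refine ⟨c, fun e => P.ω₁_div_two_notMem_lattice ((k _).2 ?_), k,
    fun z => (a4 _).symm.trans (congrArg Subtype.val (hc z))⟩
  rw [e, zero_mul]
  exact zero_mem _

end Vale.Agent.P269CS
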