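import Vale.Agent.P269CS.Rs
import Vale.Agent.P269C.Spec2

/-!
# Smooth fibres: differentials, vector fields, genus zero and genus one
-/

set_option linter.unusedSectionVars false

open scoped Topology Manifold ContDiff
open Set Filter Asymptotics

noncomputable section

namespace Vale.Agent.P269CS

open Vale.Agent.P247C Vale.Agent.P247C.RT Vale.Agent.P247C.RSp Vale.Agent.P247B
open Vale.Agent.P273.H183 Vale.Agent.P273.H948
open Vale.Agent.P273SD (Mod Pc HolF FIso)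
open Vale.Agent.P269C (nf FH Co Dr Df Om Bas Iso NOVF)

variable {L L' : Type} {m m' : ℕ} {C : Fam L m} {b : Fin m → ℂ}

theorem smo_of_sm (hC : C.IsStable) (hb : b ∈ C.B) (hs : P269C.Sm C b) : Smo C b :=
  ⟨hC, hb, fun p hp => by
    obtain ⟨U, u, v, t, a1, a2⟩ := P273SD.exists_mod hC p
    exact P273SD.sm_of_mod a2 a1 (hs p hp U u v t a2.isChart a1)⟩

theorem Smo.toSm (h : Smo C b) : P269C.Sm C b := fun p hp _ _ _ _ a1 a2 =>
  (h.sm p hp).all h.st (IsChart.isModel (hol := fun x g => C.hol g x) a1) a2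

variable {h : Smo C b}

/-! ### differentials -/

/-- the form on the Riemann surface -/
def th (h : Smo C b) (η : Df C) (p : Fb h) : ℂ := η (cd p).u p.1

theorem th_eq {η : Df C} (hη : Om C b η) {z : C.X → ℂ} {p : Fb h} (hz : Co C z p.1) :
    th h η p = d1 (fun q : Fb h => z q.1) p * η z p.1 :=
  (hη p.1 p.2).1 _ _ _ (co_cd p) hz ((dr_iff (co_cd p) hz.1).2 (by rw [d1_cd, mul_one]))

theorem holForm_th {η : Df C} (hη : Om C b η) : HolForm (th h η) := holForm_of fun p => by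
  have hp := (exists_cd p).choose_spec
  obtain ⟨f, a1, a2⟩ := (hη p.1 p.2).2 _ _ _ _ (cd p).md.isChart hp.1
  rw [nf_val] at a2
  have hu := hol_of_hol (hol_cd p)
  refine ⟨fun q => f q.1 * ((cd p).u q.1)⁻¹, _, (hol_of_fh a1).mul (hu.inv hp.2), hu, ?_⟩
  filter_upwards [eventually_map.1 a2, co_ev (co_cd p),
    hu.self.continuousAt.eventually_ne hp.2] with q b1 b2 b3
  rw [th_eq hη b2, ← b1.1 b3, mul_inv_cancel_right₀ b3, mul_comm]

/-- the differential of a form -/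
def om (θ : Fb h → ℂ) : Df C := fun z => ex fun q => θ q / d1 (fun q : Fb h => z q.1) q

theorem om_val (θ : Fb h → ℂ) (z : C.X → ℂ) (p : Fb h) :
    om θ z p.1 = θ p / d1 (fun q : Fb h => z q.1) p := ex_val _ p

theorem th_om (θ : Fb h → ℂ) (p : Fb h) : th h (om θ) p = θ p := by
  rw [th, om_val, d1_cd, div_one]

theorem om_chart {θ : Fb h → ℂ} (hθ : HolForm θ) {U : Set C.X} {x y : C.X → ℂ}
    {t : (Fin m → ℂ) → ℂ} (hm : Mod C U x y t) {p : Fb h} (hp : p.1 ∈ U) (hx : x p.1 ≠ 0) :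
    FH C (fun q => om θ x q * x q) p.1 ∧
      ∀ᶠ q in nf C p.1, y q ≠ 0 → om θ y q * y q = -(om θ x q * x q) := by
  let d : CD C := ⟨U, x, y, t, hm⟩
  have he : d.ch p ∈ atlas ℂ (Fb h) := ⟨d, p, rfl⟩
  have hs : p ∈ (d.ch p).source := ⟨hp, hx⟩
  have et : ∀ r : Fb h, r.1 ∈ U → x r.1 * y r.1 = t b := fun r hr =>
    (hm.eqn _ hr).trans (congrArg t (pi_val r))
  refine ⟨fh_of_hol ?_, ?_⟩
  · simp only [om_val]
    exact (hol_coef hθ (hol_chart he hs) (d1_chart_ne he hs)).mul (hol_chart he hs)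
  · rw [nf_val, eventually_map]
    filter_upwards [(d.ch p).open_source.mem_nhds hs] with q hq hy
    have e : (fun r : Fb h => y r.1) =ᶠ[𝓝 q] fun r => t b * (x r.1)⁻¹ := by
      filter_upwards [(d.ch p).open_source.mem_nhds hq] with r hr
      rw [← et r hr.1, mul_comm (x r.1), mul_inv_cancel_right₀ hr.2]
    have h2 : x q.1 ≠ 0 := hq.2
    have e2 := d1_fun (F := fun r : Fb h => x r.1) (hol_chart he hq)
      ((hasDerivAt_inv h2).const_mul (t b))
    have h1 : d1 (fun r : Fb h => x r.1) q ≠ 0 := d1_chart_ne he hq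
    rw [om_val, om_val, d1_congr e, e2, ← et q hq.1]
    field_simp

theorem om_om {θ : Fb h → ℂ} (hθ : HolForm θ) : Om C b (om θ) := by
  intro p hp
  refine ⟨fun z w c hz hw hd => ?_, fun U x y t a1 a2 => ?_⟩
  · have e := (dr_iff (h := h) (p := ⟨p, hp⟩) hz hw.1).1 hd
    have h1 := (co_iff (h := h) (p := ⟨p, hp⟩)).1 hw
    refine (om_val θ z ⟨p, hp⟩).trans (Eq.trans ?_ (congrArg (c * ·) (om_val θ w ⟨p, hp⟩).symm))
    rw [e] at h1 ⊢
    have h2 := left_ne_zero_of_mul h1.2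
    have h3 := right_ne_zero_of_mul h1.2
    field_simp
  · have hm : Mod C U x y t := IsChart.isModel (hol := fun x g => C.hol g x) a1
    rcases (h.sm p hp).all h.st hm a2 with hx | hy
    · obtain ⟨b1, b2⟩ := om_chart hθ hm (p := ⟨p, hp⟩) a2 hx
      exact ⟨_, b1, b2.mono fun q hq => ⟨fun _ => rfl, hq⟩⟩
    · obtain ⟨b1, b2⟩ := om_chart hθ hm.swap (p := ⟨p, hp⟩) a2 hy
      refine ⟨fun q => -(om θ y q * y q), fh_of_hol (h := h) (p := ⟨p, hp⟩) (hol_of_fh b1).neg,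
        b2.mono fun q hq => ⟨hq, fun _ => (neg_neg _).symm⟩⟩

theorem bas_iff {g : ℕ} {e : Fin g → Df C} : Bas C b e ↔ (∀ j, Om C b (e j)) ∧
    ∀ θ, HolForm θ → ∃! c : Fin g → ℂ, ∀ p, θ p = ∑ j, c j * th h (e j) p := by
  refine and_congr_right fun he => ?_
  have key : ∀ η, Om C b η → ∀ c : Fin g → ℂ,
      (∀ p ∈ C.fib b, ∀ z, Co C z p → η z p = ∑ j, c j * e j z p) ↔
        ∀ p, th h η p = ∑ j, c j * th h (e j) p := fun η hη c =>
    ⟨fun H p => H p.1 p.2 _ (co_cd p), fun H p hp z hz => by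
      obtain ⟨p, rfl⟩ : ∃ q : Fb h, q.1 = p := ⟨⟨p, hp⟩, rfl⟩
      refine mul_left_cancel₀ (co_iff.1 hz).2 (((th_eq hη hz).symm.trans (H p)).trans ?_)
      rw [Finset.mul_sum]
      exact Finset.sum_congr rfl fun j _ => by rw [th_eq (he j) hz, mul_left_comm]⟩
  refine ⟨fun H θ hθ => ?_, fun H η hη => ?_⟩
  · simpa only [th_om] using (existsUnique_congr (key _ (om_om hθ))).1 (H _ (om_om hθ))
  · exact (existsUnique_congr (key η hη)).2 (H _ (holForm_th hη))

theorem bas_indep {g : ℕ} {e : Fin g → Df C} (he : Bas C b e) {c : Fin g → ℂ}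
    (hc : ∀ p, ∑ j, c j * th h (e j) p = 0) : c = 0 :=
  ((bas_iff.1 he).2 (fun _ => 0) (holForm_of fun p => ⟨fun _ => 0, fun _ => 0, Hol.const _ _,
    Hol.const _ _, .of_forall fun _ => (zero_mul _).symm⟩)).unique (fun p => (hc p).symm)
    fun p => by simp

theorem holForm_comb {g : ℕ} {e : Fin g → Df C} (he : Bas C b e) (c : Fin g → ℂ) :
    HolForm fun p => ∑ j, c j * th h (e j) p := fun σ z hσ => by
  rw [pbk_sum]
  refine Finset.analyticAt_fun_sum _ fun j _ => ?_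
  rw [pbk_mul (fun _ => c j)]
  exact analyticAt_const.mul (holForm_th (he.1 j) σ z hσ)

/-- genus zero: functions with one simple pole -/
theorem pole0 {e : Fin 0 → Df C} (he : Bas C b e) (a : Fb h) : ∃ f G : Fb h → ℂ, Pole f G a :=
  (bpf a).resolve_left fun ⟨θ, h1, h2⟩ => by
    obtain ⟨c, hc, -⟩ := (bas_iff.1 he).2 θ h1
    exact h2 ((hc a).trans Finset.sum_empty)

/-- positive genus: no base points -/
theorem bpf' {g : ℕ} {e : Fin (g + 1) → Df C} (he : Bas C b e) (a : Fb h) :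
    ∃ j, th h (e j) a ≠ 0 := by
  rcases bpf a with ⟨θ, h1, h2⟩ | ⟨f, G, h1⟩
  · obtain ⟨c, hc, -⟩ := (bas_iff.1 he).2 θ h1
    by_contra! H
    exact h2 ((hc a).trans (by simp [H]))
  · have := bas_indep (h := h) he (c := 1) fun p => by
      simp [pole_form h1 (holForm_th (he.1 _)) p]
    exact absurd (congrFun this 0) one_ne_zero

theorem th_ne {e : Fin 1 → Df C} (he : Bas C b e) (a : Fb h) : th h (e 0) a ≠ 0 := by
  obtain ⟨j, hj⟩ := bpf' he a
  rwa [Fin.fin_one_eq_zero j] at hj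

/-- **G1**: the differential of a smooth curve of genus one has no zero. -/
theorem g1 (hC : C.IsStable) (hb : b ∈ C.B) (hs : P269C.Sm C b) {e : Fin 1 → Df C}
    (he : Bas C b e) {p : C.X} (hp : p ∈ C.fib b) {z : C.X → ℂ} (hz : Co C z p) : e 0 z p ≠ 0 := by
  have := th_ne (h := smo_of_sm hC hb hs) he ⟨p, hp⟩
  exact right_ne_zero_of_mul ((th_eq (h := smo_of_sm hC hb hs) (p := ⟨p, hp⟩) (he.1 0) hz) ▸ this)

/-! ### vector fields -/

section field

variable {j : L' → L} {V : (C.X → ℂ) → C.X → ℂ}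

theorem fld (hV : (P269C.sub j C).IsField b V) :
    (∀ p ∈ C.fib b, ∀ f g, C.hol f p → C.hol g p →
      V (f + g) p = V f p + V g p ∧ V (f * g) p = f p * V g p + g p * V f p ∧
      (f =ᶠ[𝓝[C.fib b] p] g → V f p = V g p) ∧ ∃ k, C.hol k p ∧ V f =ᶠ[𝓝[C.fib b] p] k) ∧
    ∀ p ∈ C.fib b, ∀ c : ℂ, V (fun _ => c) p = 0 := ⟨hV.1, hV.2.1⟩

theorem field_eq (hV : (P269C.sub j C).IsField b V) {f : C.X → ℂ} {p : Fb h} (hf : C.hol f p.1) :
    V f p.1 = d1 (fun q : Fb h => f q.1) p * V (cd p).u p.1 := by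
  have hm := (cd p).md.hol p.1 (exists_cd p).choose_spec.1
  obtain ⟨K, b1, b2, b3⟩ := hol_div (hol_of_hol hf) (hol_of_hol (hol_cd p))
    (by rw [d1_cd]; exact one_ne_zero)
  obtain ⟨k, c1, c2⟩ := exists_hol b1
  obtain ⟨k', d1', d2⟩ := (hm k).1 c1
  have hc : ∀ c : ℂ, C.hol (fun _ => c) p.1 := fun c => (hm _).2 ⟨fun _ => c, analyticAt_const, .rfl⟩
  have h1 : C.hol ((cd p).u + fun _ => -(cd p).u p.1) p.1 :=
    (hm _).2 ⟨fun w => w.2.1 + -(cd p).u p.1, (an_u _).add analyticAt_const, .rfl⟩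
  have h2 : C.hol (((cd p).u + fun _ => -(cd p).u p.1) * k) p.1 :=
    (hm _).2 ⟨fun w => (w.2.1 + -(cd p).u p.1) * k' w, ((an_u _).add analyticAt_const).mul d1',
      d2.mono fun q hq => congrArg (((cd p).u q + -(cd p).u p.1) * ·) hq⟩
  have h3 : C.hol ((fun _ => f p.1) + ((cd p).u + fun _ => -(cd p).u p.1) * k) p.1 :=
    (hm _).2 ⟨fun w => f p.1 + (w.2.1 + -(cd p).u p.1) * k' w,
      analyticAt_const.add (((an_u _).add analyticAt_const).mul d1'),
      d2.mono fun q hq => congrArg (f p.1 + ((cd p).u q + -(cd p).u p.1) * ·) hq⟩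
  obtain ⟨v1, v2⟩ := fld hV
  have e1 := (v1 p.1 p.2 _ _ hf h3).2.2.1 (by
    rw [← map_val]
    refine eventually_map.2 ?_
    filter_upwards [b3, c2] with q g1 g2
    rw [g2, sub_eq_add_neg] at g1
    exact g1)
  rw [e1, (v1 p.1 p.2 _ _ (hc _) h2).1, (v1 p.1 p.2 _ _ h1 c1).2.1,
    (v1 p.1 p.2 _ _ (hol_cd p) (hc _)).1, v2 p.1 p.2, v2 p.1 p.2, ← b2, d1_cd,
    ← c2.self_of_nhds]
  simp

theorem field_vec (hV : (P269C.sub j C).IsField b V) : HolVec fun p : Fb h => V (cd p).u p.1 := by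
  intro F p hF
  obtain ⟨g, a1, a2⟩ := exists_hol hF
  obtain ⟨k, b1, b3⟩ := ((fld hV).1 p.1 p.2 g g a1 a1).2.2.2
  have hm := (cd p).md
  obtain ⟨g', c1, c2⟩ := (hm.hol p.1 (exists_cd p).choose_spec.1 g).1 a1
  have h1 : ∀ᶠ q in 𝓝 p.1, C.hol g q := by
    filter_upwards [hm.isOpen.mem_nhds (exists_cd p).choose_spec.1,
      (hm.cont (exists_cd p).choose_spec.1).eventually c1.eventually_analyticAt,
      c2.eventually_nhds] with x h1 h2 h3 using (hm.hol x h1 g).2 ⟨g', h2, h3⟩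
  refine (hol_of_hol b1).congr ?_
  rw [← map_val] at b3
  filter_upwards [eventually_map.1 b3, (cont_val.tendsto p).eventually h1, a2.eventually_nhds]
    with q g1 g2 g3
  rw [← g1, field_eq hV g2, d1_congr (f' := fun q : Fb h => g q.1) g3]

end field

/-- **NOVF** -/
theorem novf : NOVF := by
  intro L L' _ m g j C hj hC b hb hs ⟨e, he⟩ hg V hV p hp f hf
  let h := smo_of_sm hC hb hs
  have hτ := field_vec (h := h) hV
  have h0 : ∀ i, V (cd (mk h (j i))).u (mk h (j i)).1 = 0 := fun i => hV.2.2 i _ (hol_cd _)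
  refine (field_eq (h := h) hV (p := ⟨p, hp⟩) hf).trans (mul_eq_zero_of_right _ ?_)
  rcases g with _ | _ | g
  · obtain ⟨i₀, i₁, i₂, a1, a2, a3⟩ := Fintype.two_lt_card_iff.1 (by omega : 2 < Fintype.card L)
    obtain ⟨F, G, hP⟩ := pole0 he (mk h (j i₀))
    exact hτ.zero_of_pole hP (fun c => a1 (hj (mk_inj c)).symm) (fun c => a2 (hj (mk_inj c)).symm)
      (fun c => a3 (hj (mk_inj c))) (h0 i₀) (h0 i₁) (h0 i₂) _
  · obtain ⟨i⟩ := Fintype.card_pos_iff.1 (by omega : 0 < Fintype.card L)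
    exact hτ.zero_of (holForm_th (he.1 0)) (th_ne he ⟨p, hp⟩) (mul_eq_zero_of_right _ (h0 i)) _
  · let q : Fb h := ⟨p, hp⟩
    by_cases hz : th h (e 0) q = 0
    · by_contra hne
      have := bas_indep (h := h) he (c := Pi.single 0 1) fun x => by
        by_contra hx
        rw [Finset.sum_eq_single 0 (fun k _ hk => by rw [Pi.single_eq_of_ne hk, zero_mul])
          (absurd (Finset.mem_univ _)), Pi.single_eq_same, one_mul] at hx
        exact hne (hτ.zero_of (holForm_th (he.1 0)) hx (mul_eq_zero_of_left hz _) q)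
      simpa using congrFun this 0
    · by_contra hne
      have := bas_indep (h := h) he (c := Pi.single 0 (th h (e 1) q) - Pi.single 1 (th h (e 0) q))
        fun x => by
          by_contra hx
          refine hne (hτ.zero_of (holForm_comb he _) hx (y := q) (mul_eq_zero_of_left ?_ _) q)
          simp only [Pi.sub_apply, sub_mul, Finset.sum_sub_distrib]
          simp [Pi.single_apply, mul_comm]
      exact hz (by simpa using congrFun this 1)

/-! ### genus zero -/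

/-- **G0** -/
theorem g0 (hC : C.IsStable) (hb : b ∈ C.B) (hs : P269C.Sm C b) {e : Fin 0 → Df C}
    (he : Bas C b e) {p₀ : C.X} (hp₀ : p₀ ∈ C.fib b) : ∃ f : C.X → ℂ,
      (∀ p ∈ C.fib b, p ≠ p₀ → FH C f p) ∧ BijOn f (C.fib b \ {p₀}) univ ∧
      ∃ z, Co C z p₀ ∧ z p₀ = 0 ∧ ∀ᶠ q in nf C p₀, q ≠ p₀ → f q * z q = 1 := by
  let h := smo_of_sm hC hb hs
  let a : Fb h := ⟨p₀, hp₀⟩
  obtain ⟨F, G, hP⟩ := pole0 he a
  have n1 : ∀ {p} (hp : p ∈ C.fib b), p ≠ p₀ → (⟨p, hp⟩ : Fb h) ≠ a := fun _ c d =>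
    c (congrArg Subtype.val d)
  refine ⟨ex F, fun p hp c => fh_of_hol (h := h) (p := ⟨p, hp⟩) (by
      simpa only [ex_val] using hP.hf _ (n1 hp c)),
    ⟨mapsTo_univ _ _, fun p hp q hq c => congrArg Subtype.val (pole_inj hP (n1 hp.1 hp.2)
      (n1 hq.1 hq.2) ((ex_val F ⟨p, hp.1⟩).symm.trans (c.trans (ex_val F ⟨q, hq.1⟩)))), fun w _ => ?_⟩,
    ex G, (co_iff (p := a)).2 (by simpa only [ex_val] using ⟨hP.hG, hP.G1⟩),
    (ex_val G a).trans hP.G0, ?_⟩
  · obtain ⟨y, ⟨c1, c2⟩, -⟩ := pole_bij hP w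
    exact ⟨y.1, ⟨y.2, fun c => c1 (Subtype.ext c)⟩, (ex_val F y).trans c2⟩
  · change ∀ᶠ q in nf C a.1, _
    rw [nf_val, eventually_map]
    filter_upwards [eventually_nhdsWithin_iff.1 (pole_mul hP)] with q c1 c2
    rw [ex_val, ex_val, mul_comm]
    exact c1 fun c => c2 (congrArg Subtype.val c)

end Vale.Agent.P269CS
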