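import Vale.Agent.P269CD.Defs
import Vale.Agent.P269CT.Sec
import Vale.Agent.P269CV.K2

/-!
P269, block C, row SYS: chart systems of the universal curve exist.
-/

set_option autoImplicit false
set_option linter.all false

noncomputable section

namespace Vale.Agent.P269CS

open Set Filter Vale.Agent.P273.H183 Vale.Agent.P272.K Vale.Agent.P269C Vale.Agent.P269CD
open Vale.Agent.P269CT (HolAt cont_π π_s holAt_s s_inj sp_s ex_co)
open scoped Topology ContDiff Classical

variable {L : Type} {D : ℕ} {C : Fam L D}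

theorem isCh_restr {e : OpenPartialHomeomorph C.X (Cm (D + 1))} (h : IsCh C e) {V : Set C.X}
    (hV : IsOpen V) : IsCh C (e.restrOpen V hV) := fun q hq f => h q hq.1 f

theorem cont_sπ (hC : C.IsStable) (i : L) : Continuous fun q => C.s i (C.π q) :=
  continuous_iff_continuousAt.2 fun q =>
    ContinuousAt.comp (f := C.π) (holAt_s hC (hC.2.2.1 q) i).1 (cont_π hC).continuousAt

theorem isOpen_ne (hC : C.IsStable) (i : L) : IsOpen {q | q ≠ C.s i (C.π q)} := by
  have := hC.2.1
  exact isOpen_ne_fun continuous_id (cont_sπ hC i)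

theorem isOpen_off [Finite L] (hC : C.IsStable) (o : Option L) :
    IsOpen {q | ∀ i, o ≠ some i → q ≠ C.s i (C.π q)} := by
  rw [setOf_forall]
  refine isOpen_iInter_of_finite fun i => ?_
  by_cases h : o = some i
  · simp [h]
  · simpa [h] using isOpen_ne hC i

/-- Every point is in an adapted chart. -/
theorem ex_ch [Finite L] (h3 : T3) (hK : Kur C) (p : C.X) : ∃ c : Ch C, p ∈ c.e.source := by
  have hC := hK.1
  by_cases hp : ∃ i, p = C.s i (C.π p)
  · obtain ⟨i, hi⟩ := hp
    have hb := hC.2.2.1 p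
    obtain ⟨z, hz, hc⟩ := ex_co hC (hi ▸ sp_s hC hb i : Sp C p)
    have ha : AnalyticAt ℂ (fun b => z (C.s i b)) (C.π p) := (holAt_s hC hb i).2 z (hi ▸ hz)
    have h1 : C.hol (fun q => z q - z (C.s i (C.π q))) p :=
      P269CV.k2.han hC (fun w => w.2.1 - z (C.s i w.1)) hz hz
        ((analyticAt_fst.comp analyticAt_snd).sub
          (AnalyticAt.comp (g := fun b => z (C.s i b)) ha analyticAt_fst))
    have h2 : Co C (fun q => z q - z (C.s i (C.π q))) p := by
      obtain ⟨-, U, hU, hinj⟩ := hc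
      refine ⟨⟨_, h1, EventuallyEq.rfl⟩, U ∩ C.fib (C.π p), inter_mem hU self_mem_nhdsWithin, ?_⟩
      intro q hq q' hq' e
      have e1 : C.π q = C.π p := hq.2
      have e2 : C.π q' = C.π p := hq'.2
      simp only [e1, e2, sub_left_inj] at e
      exact hinj hq.1 hq'.1 e
    obtain ⟨e, hpe, he, hq⟩ := h3.co hC _ p h1 h2
    have hV : IsOpen ({q | C.s i (C.π q) ∈ e.source} ∩
        {q | ∀ j, some i ≠ some j → q ≠ C.s j (C.π q)}) :=
      (e.open_source.preimage (cont_sπ hC i)).inter (isOpen_off hC (some i))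
    have hs : ∀ q j, some i ≠ some j → C.s i (C.π q) ≠ C.s j (C.π q) := fun q j hj e =>
      hj (congrArg some (s_inj hC (hC.2.2.1 q) e))
    refine ⟨⟨e.restrOpen _ hV, some i, isCh_restr he hV, ?_, fun j hj q hq => hq.2.2 j hj⟩,
      hpe, ?_, fun j hj => ?_⟩
    · intro j hj q h
      obtain rfl : i = j := Option.some.inj hj
      have e1 := π_s hC (hC.2.2.1 q) i
      refine ⟨?_, ⟨h.2.1, ?_, fun j hj => ?_⟩, ?_⟩
      · change pr (e q) = _
        rw [hq q h.1]; simp [pr]
      · change C.s i (C.π (C.s i (C.π q))) ∈ e.source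
        rw [e1]; exact h.2.1
      · rw [e1]; exact hs q j hj
      · change e _ = _
        rw [hq _ h.2.1, e1, sub_self]; rfl
    · change C.s i (C.π p) ∈ e.source
      rw [← hi]; exact hpe
    · have := hs p j hj
      rwa [← hi] at this
  · obtain ⟨e, hpe, he⟩ := h3.ex hK p
    exact ⟨⟨e.restrOpen _ (isOpen_off hC none), none, isCh_restr he _, fun j hj => (by cases hj),
      fun j hj q hq => hq.2 j hj⟩, hpe, fun j _ h => hp ⟨j, h⟩⟩

theorem holAt_symm {e : OpenPartialHomeomorph C.X (Cm (D + 1))} (h : IsCh C e) {y : Cm (D + 1)}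
    (hy : y ∈ e.target) : HolAt C e.symm y :=
  ⟨e.continuousAt_symm hy, fun f hf => by
    have := (h _ (e.map_target hy) f).1 hf
    rwa [e.right_inv hy] at this⟩

/-- The transition maps are holomorphic. -/
theorem an_tr {e e' : OpenPartialHomeomorph C.X (Cm (D + 1))} (h : IsCh C e) (h' : IsCh C e')
    {y : Cm (D + 1)} (hy : y ∈ e.target) (hy' : e.symm y ∈ e'.source) :
    AnalyticAt ℂ (fun x => e' (e.symm x)) y := by
  refine AnalyticAt.pi fun l => (holAt_symm h hy).2 (fun q => e' q l) ((h' _ hy' _).2 ?_)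
  have h1 : AnalyticAt ℂ (fun x : Cm (D + 1) => x l) (e' (e.symm y)) :=
    (ContinuousLinearMap.proj (R := ℂ) (φ := fun _ : Fin (D + 1) => ℂ) l).analyticAt _
  refine h1.congr ?_
  filter_upwards [e'.open_target.mem_nhds (e'.map_source hy')] with x hx
  rw [e'.right_inv hx]

/-- A function in a chart, extended by zero. -/
def ext0 (e : OpenPartialHomeomorph C.X (Cm (D + 1))) (f : Cm (D + 1) → ℝ) (q : C.X) : ℝ :=
  if q ∈ e.source then f (e q) else 0

theorem sm_ext0 (hC : C.IsStable) {e e' : OpenPartialHomeomorph C.X (Cm (D + 1))} (h : IsCh C e)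
    (h' : IsCh C e') {f : Cm (D + 1) → ℝ} (hf : ContDiff ℝ ∞ f) (hc : HasCompactSupport f)
    (hs : tsupport f ⊆ e'.target) {y : Cm (D + 1)} (hy : y ∈ e.target) :
    ContDiffAt ℝ ∞ (fun x => ext0 e' f (e.symm x)) y := by
  have := hC.2.1
  by_cases hy' : e.symm y ∈ e'.source
  · have h1 : ContDiffAt ℝ ∞ (fun x => f (e' (e.symm x))) y :=
      hf.contDiffAt.comp y ((an_tr h h' hy hy').contDiffAt.restrict_scalars ℝ)
    refine h1.congr_of_eventuallyEq ?_
    filter_upwards [(e.continuousAt_symm hy).preimage_mem_nhds (e'.open_source.mem_nhds hy')]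
      with x hx
    exact if_pos hx
  · have hK : IsClosed (e'.symm '' tsupport f) :=
      (hc.isCompact.image_of_continuousOn (e'.continuousOn_symm.mono hs)).isClosed
    have hn : e.symm y ∈ (e'.symm '' tsupport f)ᶜ := by
      rintro ⟨x, hx, e1⟩
      exact hy' (e1 ▸ e'.map_target (hs hx))
    refine (contDiffAt_const (c := (0 : ℝ))).congr_of_eventuallyEq ?_
    filter_upwards [(e.continuousAt_symm hy).preimage_mem_nhds (hK.isOpen_compl.mem_nhds hn)]
      with x hx
    unfold ext0
    split_ifs with h1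
    · by_contra h2
      exact hx ⟨_, subset_tsupport f h2, e'.left_inv h1⟩
    · rfl

/-- Row SYS. -/
theorem sys (h3 : T3) : SYS := by
  intro L _ D C γ hK hγ hc hB
  have hC := hK.1
  choose c hcp using ex_ch h3 hK
  have hf : ∀ p, ∃ f : Cm (D + 1) → ℝ, tsupport f ⊆ (c p).e.target ∧ HasCompactSupport f ∧
      ContDiff ℝ ∞ f ∧ range f ⊆ Icc 0 1 ∧ f ((c p).e p) = 1 := fun p =>
    exists_contDiff_tsupport_subset ((c p).e.open_target.mem_nhds ((c p).e.map_source (hcp p)))
  choose f hf1 hf2 hf3 hf4 hf5 using hf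
  have h0 : ∀ p q, 0 ≤ ext0 (c p).e (f p) q := fun p q => by
    unfold ext0
    split_ifs
    · exact (hf4 p ⟨_, rfl⟩).1
    · exact le_rfl
  have hU : ∀ p, {q | 0 < ext0 (c p).e (f p) q} ∈ 𝓝 p := fun p => by
    have h1 : ContinuousAt (fun q => f p ((c p).e q)) p :=
      (hf3 p).continuous.continuousAt.comp ((c p).e.continuousAt (hcp p))
    have h2 : ∀ᶠ q in 𝓝 p, 0 < f p ((c p).e q) :=
      h1.eventually (lt_mem_nhds (one_pos.trans_eq (hf5 p).symm))
    filter_upwards [h2, (c p).e.open_source.mem_nhds (hcp p)] with q h3 h4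
    change 0 < ext0 _ _ _
    unfold ext0
    rwa [if_pos h4]
  obtain ⟨t, -, ht⟩ := (hC.2.2.2.1 _ hB hc).elim_nhds_subcover _ fun p _ => hU p
  let ι : Fin t.card → C.X := fun j => (t.equivFin.symm j : C.X)
  let S : C.X → ℝ := fun q => ∑ j, ext0 (c (ι j)).e (f (ι j)) q
  have hS : ∀ q, C.π q ∈ tsupport γ → S q ≠ 0 := fun q hq => by
    obtain ⟨p, hp, h1⟩ := mem_iUnion₂.1 (ht hq)
    refine (Finset.sum_pos' (fun j _ => h0 _ _) ⟨t.equivFin ⟨p, hp⟩, Finset.mem_univ _, ?_⟩).ne'
    simpa [ι] using h1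
  refine ⟨⟨t.card, fun j => c (ι j),
    fun j y => f (ι j) y * (γ (C.π ((c (ι j)).e.symm y)) / S ((c (ι j)).e.symm y)),
    fun j => ?_, fun p => ?_⟩⟩
  · have hts : tsupport (fun y => f (ι j) y *
        (γ (C.π ((c (ι j)).e.symm y)) / S ((c (ι j)).e.symm y))) ⊆ tsupport (f (ι j)) :=
      tsupport_mul_subset_left
    refine ⟨contDiff_iff_contDiffAt.2 fun y => ?_, (hf2 _).mul_right, hts.trans (hf1 _)⟩
    by_cases hy : y ∈ tsupport (f (ι j))
    · have hy' := hf1 _ hy
      have ha := (holAt_symm (c (ι j)).hol hy').π hC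
      refine (hf3 _).contDiffAt.mul ?_
      by_cases hz : C.π ((c (ι j)).e.symm y) ∈ tsupport γ
      · exact (hγ.contDiffAt.comp y (ha.contDiffAt.restrict_scalars ℝ)).div
          (ContDiffAt.sum fun k _ =>
            sm_ext0 hC (c (ι j)).hol (c (ι k)).hol (hf3 _) (hf2 _) (hf1 _) hy') (hS _ hz)
      · refine (contDiffAt_const (c := (0 : ℝ))).congr_of_eventuallyEq ?_
        filter_upwards [ha.continuousAt.preimage_mem_nhds
          ((isClosed_tsupport γ).isOpen_compl.mem_nhds hz)] with x hx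
        rw [image_eq_zero_of_notMem_tsupport hx, zero_div]
    · refine (contDiffAt_const (c := (0 : ℝ))).congr_of_eventuallyEq ?_
      filter_upwards [(isClosed_tsupport _).isOpen_compl.mem_nhds hy] with x hx
      rw [image_eq_zero_of_notMem_tsupport hx, zero_mul]
  · have h1 : ∀ j, (if p ∈ (c (ι j)).e.source then f (ι j) ((c (ι j)).e p) *
        (γ (C.π ((c (ι j)).e.symm ((c (ι j)).e p))) / S ((c (ι j)).e.symm ((c (ι j)).e p))) else 0)
        = ext0 (c (ι j)).e (f (ι j)) p * (γ (C.π p) / S p) := fun j => by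
      unfold ext0
      split_ifs with h
      · rw [(c (ι j)).e.left_inv h]
      · rw [zero_mul]
    refine (Finset.sum_congr rfl fun j _ => h1 j).trans ?_
    rw [← Finset.sum_mul]
    by_cases hz : C.π p ∈ tsupport γ
    · exact mul_div_cancel₀ _ (hS p hz)
    · rw [image_eq_zero_of_notMem_tsupport hz, zero_div, mul_zero]

end Vale.Agent.P269CS
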