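import Vale.Agent.P247B.Im
import Mathlib.Geometry.Manifold.Complex

/-!
# Compact Riemann surfaces: the canonical system has no base point, functions with one pole
-/

set_option linter.unusedSectionVars false

open scoped Topology Manifold ContDiff ComplexConjugate
open Set Filter

noncomputable section

namespace Vale.Agent.P269CS

open Vale.Agent.P247C Vale.Agent.P247C.RT Vale.Agent.P247C.RSp Vale.Agent.P247B

variable {M : Type} [TopologicalSpace M] [ChartedSpace ℂ M] [IsManifold 𝓘(ℂ) 1 M]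

theorem hol_of_an {F : M → ℂ} {m : M} (h : AnalyticAt ℂ (F ∘ (chartAt ℂ m).symm) (chartAt ℂ m m)) :
    Hol F m := by
  refine ((hol_chart (chart_mem_atlas ℂ m) (mem_chart_source ℂ m)).comp h).congr ?_
  filter_upwards [(chartAt ℂ m).open_source.mem_nhds (mem_chart_source ℂ m)] with y hy
  simp [(chartAt ℂ m).left_inv hy]

theorem d1_plot {F : M → ℂ} {σ : ℂ → M} {z : ℂ} (h : HolAt σ z) (hF : Hol F (σ z)) :
    deriv (F ∘ σ) z = d1 F (σ z) * dM σ z := by
  rw [← d1_deriv, d1_comp hF.self h.self, dM_eq]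

theorem d1_fun {F : M → ℂ} {g : ℂ → ℂ} {m : M} (h : Hol F m) {c : ℂ} (hg : HasDerivAt g c (F m)) :
    d1 (fun y => g (F y)) m = c * d1 F m := by
  have := d1_comp (g := g) hg.differentiableAt.mdifferentiableAt h.self
  rwa [d1_deriv, hg.deriv] at this

theorem ev_d1 {G : M → ℂ} {m : M} (h : Hol G m) (h0 : d1 G m ≠ 0) : ∀ᶠ y in 𝓝 m, d1 G y ≠ 0 := by
  have he := chart_mem_atlas ℂ m
  have hm := mem_chart_source ℂ m
  have h1 : deriv (G ∘ (chartAt ℂ m).symm) (chartAt ℂ m m) ≠ 0 := by
    rw [d1_eq h he hm] at h0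
    exact left_ne_zero_of_mul h0
  filter_upwards [((chartAt ℂ m).continuousAt hm).eventually
    ((h.an he hm).deriv.continuousAt.eventually_ne h1), h.ev,
    (chartAt ℂ m).open_source.mem_nhds hm] with y a b c
  rw [d1_eq b he c]
  exact mul_ne_zero a (d1_chart_ne he c)

/-- the coefficient of a holomorphic form with respect to a coordinate -/
theorem hol_coef {θ G : M → ℂ} (hθ : HolForm θ) {m : M} (h : Hol G m) (h0 : d1 G m ≠ 0) :
    Hol (fun y => θ y / d1 G y) m := by
  obtain ⟨a1, a2, a3⟩ := ch_facts m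
  have h1 := h.an (chart_mem_atlas ℂ m) (mem_chart_source ℂ m)
  refine hol_of_an (((hθ _ _ a1).div h1.deriv (by
    rw [d1_plot a1 (a2.symm ▸ h), a2, a3, mul_one]; exact h0)).congr ?_)
  filter_upwards [ev_pull a1 (a2.symm ▸ h.ev),
    (chartAt ℂ m).open_target.mem_nhds (mem_chart_target ℂ m)] with z b c
  simp only [Pi.div_apply, Function.comp_apply]
  rw [d1_plot b.1 b.2, pbk, mul_div_mul_right _ _ (dM_symm_ne (chart_mem_atlas ℂ m) c)]

theorem holForm_of {θ : M → ℂ} (h : ∀ m, ∃ F G : M → ℂ, Hol F m ∧ Hol G m ∧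
    ∀ᶠ y in 𝓝 m, θ y = F y * d1 G y) : HolForm θ := by
  intro σ z hσ
  obtain ⟨F, G, a, b, c⟩ := h (σ z)
  refine ((an_of_hol hσ a).mul (an_of_hol hσ b).deriv).congr ?_
  filter_upwards [ev_pull hσ (b.ev.and c)] with t d
  simp only [Pi.mul_apply, Function.comp_apply]
  rw [d1_plot d.1 d.2.1, pbk, d.2.2, mul_assoc]

/-- division by a coordinate -/
theorem hol_div {H G : M → ℂ} {a : M} (hH : Hol H a) (hG : Hol G a) (h1 : d1 G a ≠ 0) :
    ∃ K, Hol K a ∧ K a * d1 G a = d1 H a ∧ ∀ᶠ y in 𝓝 a, H y = H a + (G y - G a) * K y := by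
  obtain ⟨γ, b1, b2, b3⟩ := hG.inverse h1
  have hγ : HolAt γ (G a) := b2.mono fun _ h => h.1
  have a1 : AnalyticAt ℂ (H ∘ γ) (G a) := an_of_hol hγ (b1.symm ▸ hH)
  obtain ⟨p, hp⟩ := a1
  refine ⟨fun y => dslope (H ∘ γ) (G a) (G y), hG.comp
    (hp.has_fpower_series_dslope_fslope.analyticAt), ?_, b3.mono fun y hy => ?_⟩
  · change dslope (H ∘ γ) (G a) (G a) * d1 G a = d1 H a
    rw [dslope_same, ← d1_fun hG hp.analyticAt.differentiableAt.hasDerivAt]
    exact d1_congr (b3.mono fun y hy => congrArg H hy)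
  · have := sub_smul_dslope (H ∘ γ) (G a) (G y)
    simp only [smul_eq_mul, Function.comp_apply, hy, b1] at this
    rw [this, add_sub_cancel]

variable [T2Space M] [CompactSpace M] [ConnectedSpace M]

theorem hol_const {F : M → ℂ} (h : ∀ m, Hol F m) (x y : M) : F x = F y :=
  MDifferentiable.apply_eq_of_compactSpace (I := 𝓘(ℂ)) (fun m => (h m).self) x y

theorem const_off {F H : M → ℂ} {a : M} (hF : ∀ m, m ≠ a → Hol F m) (hH : Hol H a)
    (e : ∀ᶠ y in 𝓝[≠] a, F y = H y) {m : M} (hm : m ≠ a) : F m = H a := by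
  classical
  have := hol_const (F := Function.update F a (H a)) (fun x => by
    by_cases hx : x = a
    · subst hx
      refine hH.congr ((eventually_nhdsWithin_iff.1 e).mono fun y hy => ?_)
      by_cases h : y = x
      · rw [h, Function.update_self]
      · rw [Function.update_of_ne h, hy h]
    · exact (hF x hx).congr ((isOpen_ne.eventually_mem hx).mono fun y hy =>
        Function.update_of_ne hy _ _)) m a
  rwa [Function.update_of_ne hm, Function.update_self] at this

variable {f G : M → ℂ} {a : M}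

theorem pole_d1 (h : Pole f G a) {m : M} (hm : m ≠ a) : d1 f m ≠ 0 :=
  (h.step ((h.all (f m)).filter_mono nhdsWithin_le_nhds).frequently).1 m hm rfl

theorem pole_bij (h : Pole f G a) (w : ℂ) : ∃! y, y ≠ a ∧ f y = w := (h.all w).self_of_nhds

theorem pole_inj (h : Pole f G a) {x y : M} (hx : x ≠ a) (hy : y ≠ a) (e : f x = f y) : x = y :=
  (pole_bij h (f y)).unique ⟨hx, e⟩ ⟨hy, rfl⟩

theorem pole_mul (h : Pole f G a) : ∀ᶠ y in 𝓝[≠] a, G y * f y = 1 := by
  filter_upwards [h.fG, h.G_ne] with y b c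
  rw [b] at c ⊢
  exact inv_mul_cancel₀ fun e => c (by rw [e, inv_zero])

theorem pole_dG (h : Pole f G a) : ∀ᶠ y in 𝓝[≠] a, d1 G y = -G y ^ 2 * d1 f y := by
  filter_upwards [eventually_mem_nhdsWithin, h.G_ne, h.fG,
    eventually_eventually_nhdsWithin.2 h.fG] with y b c d e
  have e1 : G =ᶠ[𝓝 y] fun t => (f t)⁻¹ := by
    rwa [(isOpen_compl_singleton.nhdsWithin_eq b)] at e
  have h0 : f y ≠ 0 := fun g => c (by rw [d, g, inv_zero])
  rw [d1_congr e1, d1_fun (h.hf y b) (hasDerivAt_inv h0), d, inv_pow]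

/-- functions with at most a simple pole -/
theorem pole_lin (h : Pole f G a) {F H : M → ℂ} (hF : ∀ m, m ≠ a → Hol F m) (hH : Hol H a)
    (e : ∀ᶠ y in 𝓝[≠] a, F y = H y * f y) : ∃ c d, ∀ m, m ≠ a → F m = c * f m + d := by
  obtain ⟨K, b1, -, b3⟩ := hol_div hH h.hG h.G1
  refine ⟨H a, K a, fun m hm => ?_⟩
  have := const_off (F := fun y => F y - H a * f y)
    (fun x hx => (hF x hx).sub ((Hol.const _ _).mul (h.hf x hx))) b1 (by
      filter_upwards [e, pole_mul h, mem_nhdsWithin_of_mem_nhds b3] with y c1 c2 c3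
      rw [c1, c3, h.G0]
      linear_combination K y * c2) hm
  linear_combination this

/-- the sphere has no holomorphic forms -/
theorem pole_form (h : Pole f G a) {θ : M → ℂ} (hθ : HolForm θ) (m : M) : θ m = 0 := by
  have h1 := hol_coef hθ h.hG h.G1
  have h2 : ∀ m, m ≠ a → θ m = 0 := fun m hm => by
    have := const_off (F := fun y => θ y / d1 f y) (H := fun y => -(G y * G y) * (θ y / d1 G y))
      (fun x hx => hol_coef hθ (h.hf x hx) (pole_d1 h hx)) ((h.hG.mul h.hG).neg.mul h1) (by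
        filter_upwards [pole_dG h, h.G_ne, eventually_mem_nhdsWithin] with y b c d
        have := pole_d1 h d
        rw [b]
        field_simp) hm
    rw [h.G0, mul_zero, neg_zero, zero_mul] at this
    exact (div_eq_zero_iff.1 this).resolve_right (pole_d1 h hm)
  by_cases hm : m = a
  · subst hm
    have h3 : ∃ᶠ y in 𝓝 m, ∀ᶠ t in 𝓝 y, θ t / d1 G t = 0 := by
      have h4 : ∃ᶠ y in 𝓝 m, y ≠ m := fun c => h.hG.not_const h.G1 (G m)
        (c.mono fun y hy => by rw [not_not.1 hy])
      exact h4.mono fun y hy => (isOpen_ne.eventually_mem hy).mono fun t ht => by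
        rw [h2 t ht, zero_div]
    exact (div_eq_zero_iff.1 (h1.eq_of_freq h3).self_of_nhds).resolve_right h.G1
  · exact h2 m hm

theorem pole_aff (h : Pole f G a) {c : ℂ} (hc : c ≠ 0) (d : ℂ) :
    Pole (fun y => c * f y + d) (fun y => G y / (c + d * G y)) a := by
  have h0 : c + d * G a ≠ 0 := by rwa [h.G0, mul_zero, add_zero]
  have a1 : AnalyticAt ℂ (fun w => w / (c + d * w)) (G a) :=
    analyticAt_id.div (analyticAt_const.add (analyticAt_const.mul analyticAt_id)) h0
  refine ⟨fun m hm => ((Hol.const _ _).mul (h.hf m hm)).add (Hol.const _ _), h.hG.comp a1,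
    by rw [h.G0, zero_div], ?_, ?_⟩
  · rw [d1_fun h.hG ((hasDerivAt_id' (G a)).fun_div
      (((hasDerivAt_id' (G a)).const_mul d).const_add c) h0)]
    refine mul_ne_zero ?_ h.G1
    rw [h.G0]
    simpa using hc
  · filter_upwards [pole_mul h, h.G_ne] with y b e
    rw [show c + d * G y = G y * (c * f y + d) by linear_combination (-c) * b, div_mul_cancel_left₀ e]

omit [ConnectedSpace M] in
theorem res_zero {f β : M → ℂ} {A B : M → M → ℂ} (hol : ∀ m, Hol (A m) m ∧ Hol (B m) m)
    (h1 : ∀ m, m ≠ a → ∀ᶠ y in 𝓝 m, f y = A m y + conj (B m y))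
    (h2 : ∀ᶠ y in 𝓝 a, f y = (chartAt ℂ a y - chartAt ℂ a a)⁻¹ + A a y + conj (B a y))
    (hβ : HolForm β) (e : ∀ m, β m = d1 (B m) m) (h0 : β a = 0) (m : M) : β m = 0 := by
  classical
  obtain ⟨q, hq⟩ := hβ _ _ (ch_facts a).1
  set g := dslope (pbk β (chartAt ℂ a).symm) (chartAt ℂ a a) with hg
  have ga : AnalyticAt ℂ g (chartAt ℂ a a) := hq.has_fpower_series_dslope_fslope.analyticAt
  set p : M → ℂ := fun y => f y * β y + if y = a then g (chartAt ℂ a a) else 0 with hp
  have key : ∀ m, ∃ k : ℂ → ℂ, AnalyticAt ℂ k (chartAt ℂ m m) ∧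
      pbk p (chartAt ℂ m).symm =ᶠ[𝓝 (chartAt ℂ m m)] fun z =>
        k z + conj ((B m ∘ (chartAt ℂ m).symm) z) * pbk β (chartAt ℂ m).symm z := by
    intro m
    obtain ⟨a1, a2, a3⟩ := ch_facts m
    have hA := ((hol m).1.an (chart_mem_atlas ℂ m) (mem_chart_source ℂ m)).mul (hβ _ _ a1)
    by_cases hm : m = a
    · subst hm
      refine ⟨_, ga.add hA, ?_⟩
      filter_upwards [ev_symm (mem_chart_source ℂ m) h2,
        (chartAt ℂ m).open_target.mem_nhds (mem_chart_target ℂ m)] with z b c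
      have s := sub_smul_dslope (pbk β (chartAt ℂ m).symm) (chartAt ℂ m m) z
      rw [pbk_ch, h0, sub_zero, smul_eq_mul, ← hg] at s
      rw [(chartAt ℂ m).right_inv c] at b
      simp only [Pi.add_apply, Pi.mul_apply, Function.comp_apply]
      by_cases hz : z = chartAt ℂ m m
      · subst hz
        rw [pbk_ch, pbk_ch, h0]
        simp [hp, h0]
      · have hy : (chartAt ℂ m).symm z ≠ m := fun e => hz (by
          rw [← (chartAt ℂ m).right_inv c, e])
        have : pbk p (chartAt ℂ m).symm z =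
            f ((chartAt ℂ m).symm z) * pbk β (chartAt ℂ m).symm z := by
          simp only [pbk, hp, if_neg hy, add_zero, mul_assoc]
        rw [this, b, add_mul, add_mul, ← s, inv_mul_cancel_left₀ (sub_ne_zero.2 hz)]
    · refine ⟨_, hA, ?_⟩
      filter_upwards [ev_symm (mem_chart_source ℂ m)
        ((h1 m hm).and (isOpen_ne.eventually_mem hm))] with z b
      simp only [pbk, hp, if_neg b.2, b.1, Pi.mul_apply, Function.comp_apply]
      ring
  have hs : ∀ m, Sm1 p m ∧ dB p m = β m * conj (β m) := by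
    intro m
    obtain ⟨a1, a2, a3⟩ := ch_facts m
    obtain ⟨k, b1, b2⟩ := key m
    have c1 := (hol m).2.an (chart_mem_atlas ℂ m) (mem_chart_source ℂ m)
    have c2 := hβ _ _ a1
    refine ⟨a2 ▸ sm1_of a1 (a3 ▸ one_ne_zero) (((cd_an b1).add
      ((cd_conj (cd_an c1)).mul (cd_an c2))).congr_of_eventuallyEq b2), ?_⟩
    rw [dB, dbr_congr b2, (d_add (dif (cd_an b1))
      (dif ((cd_conj (cd_an c1)).mul (cd_an c2)))).2,
      (d_mul (dif (cd_conj (cd_an c1))) (dif (cd_an c2))).2, (d_conj (dif (cd_an c1))).2,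
      (d_hol b1.differentiableAt).2, (d_hol c2.differentiableAt).2, (d_hol c1.differentiableAt).1,
      d1_plot a1 (a2.symm ▸ (hol m).2), a2, a3, pbk_ch, ← e, mul_one, mul_zero, zero_add, add_zero,
      mul_comm]
  refine IM_pos (sm1_hol hβ) ?_ m
  rw [← IM_dB fun m => (hs m).1]
  exact congrArg IM (funext fun m => (hs m).2.symm)

/-- **No base points**: at every point some holomorphic form does not vanish, unless the surface
is the sphere. -/
theorem bpf (a : M) : (∃ θ : M → ℂ, HolForm θ ∧ θ a ≠ 0) ∨ ∃ f G : M → ℂ, Pole f G a := by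
  obtain ⟨f, A, B, hol, h1, h2⟩ := dipole a
  have he := chart_mem_atlas ℂ a
  have ha := mem_chart_source ℂ a
  have h2' := h2
  set e := chartAt ℂ a with hee
  have hk : ∀ y ∈ e.source, y ≠ a → Hol (fun y => (e y - e a)⁻¹) y := fun y hy hya =>
    ((hol_chart he hy).sub (Hol.const _ _)).inv fun h => hya (e.injOn hy ha (sub_eq_zero.1 h))
  have glue : ∀ m, ∀ᶠ y in 𝓝 m, d1 (B y) y = d1 (B m) y := by
    intro m
    have main : ∀ y, y ≠ a → ∀ A' : M → ℂ, Hol A' y → Hol (B m) y →
        (∀ᶠ t in 𝓝 y, f t = A' t + conj (B m t)) → d1 (B y) y = d1 (B m) y := by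
      intro y hy A' b c d
      rw [← sub_eq_zero, ← d1_sub (hol y).2 c]
      refine d1_conj ((hol y).2.sub c) (b.sub (hol y).1) ?_
      filter_upwards [h1 y hy, d] with t p q
      rw [map_sub]
      linear_combination p - q
    by_cases hm : m = a
    · subst hm
      filter_upwards [h2.eventually_nhds, (hol m).1.ev, (hol m).2.ev, e.open_source.mem_nhds ha]
        with y b c d g
      by_cases hy : y = m
      · rw [hy]
      · exact main y hy _ ((hk y g hy).add c) d b
    · filter_upwards [(h1 m hm).eventually_nhds, (hol m).1.ev, (hol m).2.ev,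
        isOpen_compl_singleton.mem_nhds hm] with y b c d g
      exact main y g _ c d b
  have hβ : HolForm fun m => d1 (B m) m := holForm_of fun m =>
    ⟨fun _ => 1, B m, Hol.const _ _, (hol m).2, (glue m).mono fun y hy => by rw [hy, one_mul]⟩
  by_cases h0 : d1 (B a) a = 0
  swap
  · exact .inl ⟨_, hβ, h0⟩
  have hθ := res_zero hol h1 h2' hβ (fun _ => rfl) h0
  have hB : ∀ m, ∀ᶠ y in 𝓝 m, B m y = B m m := fun m =>
    (hol m).2.const_of ((glue m).mono fun y hy => hy ▸ hθ y)
  set R : M → ℂ := fun y => 1 + (e y - e a) * (A a y + conj (B a a)) with hR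
  have hE : Hol (fun y => e y - e a) a := (hol_chart he ha).sub (Hol.const _ _)
  have hRh : Hol R a := (Hol.const _ _).add (hE.mul ((hol a).1.add (Hol.const _ _)))
  have hR1 : R a = 1 := by simp [hR]
  have hRi : Hol (fun y => (R y)⁻¹) a := hRh.inv (by rw [hR1]; exact one_ne_zero)
  refine .inr ⟨f, fun y => (e y - e a) * (R y)⁻¹,
    fun m hm => ((hol m).1.add (Hol.const (conj (B m m)) m)).congr ?_, hE.mul hRi, by simp, ?_, ?_⟩
  · filter_upwards [h1 m hm, hB m] with y b c
    rw [b, c]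
  · rw [d1_eq (hE.mul hRi) he ha]
    refine mul_ne_zero ?_ (d1_chart_ne he ha)
    have e1 : (fun y => (e y - e a) * (R y)⁻¹) ∘ e.symm =ᶠ[𝓝 (e a)]
        fun z => (z - e a) * ((fun y => (R y)⁻¹) ∘ e.symm) z := by
      filter_upwards [e.open_target.mem_nhds (e.map_source ha)] with z hz
      simp only [Function.comp, e.right_inv hz]
    have e2 := ((hasDerivAt_id' (e a)).sub_const (e a)).fun_mul
      (hRi.an he ha).differentiableAt.hasDerivAt
    rw [e1.deriv_eq, e2.deriv]
    simp [e.left_inv ha, hR1]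
  · filter_upwards [self_mem_nhdsWithin, mem_nhdsWithin_of_mem_nhds (h2.and (hB a)),
      mem_nhdsWithin_of_mem_nhds (e.open_source.mem_nhds ha)] with y b c d
    have h0 : e y - e a ≠ 0 := fun h => b (e.injOn d ha (sub_eq_zero.1 h))
    have e3 : f y = (e y - e a)⁻¹ * R y := by
      rw [c.1, c.2]
      simp only [hR]
      field_simp
      ring
    rw [e3, mul_inv, inv_inv]

/-- the identity theorem for holomorphic forms -/
theorem form_zero {θ : M → ℂ} (hθ : HolForm θ) {m₀ : M} (h0 : ∀ᶠ y in 𝓝 m₀, θ y = 0) (m : M) :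
    θ m = 0 := by
  have hc : IsClopen {m | ∀ᶠ y in 𝓝 m, θ y = 0} := by
    refine ⟨isClosed_of_closure_subset fun x hx => ?_, isOpen_setOfPred_eventually_nhds⟩
    have he := chart_mem_atlas ℂ x
    have hx' := mem_chart_source ℂ x
    have h1 := (hol_coef hθ (hol_chart he hx') (d1_chart_ne he hx')).eq_of_freq (c := 0)
      ((mem_closure_iff_frequently.1 hx).mono fun y (hy : ∀ᶠ t in 𝓝 y, θ t = 0) =>
        hy.mono fun t ht => by rw [ht, zero_div])
    filter_upwards [h1, (chartAt ℂ x).open_source.mem_nhds hx'] with y b c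
    exact (div_eq_zero_iff.1 b).resolve_right (d1_chart_ne he c)
  exact Eventually.self_of_nhds (p := fun y => θ y = 0)
    (eq_univ_iff_forall.1 (hc.eq_univ ⟨m₀, h0⟩) m)

/-- holomorphic vector fields (`τ m` is the coefficient in the preferred chart at `m`) -/
def HolVec (τ : M → ℂ) : Prop := ∀ F m, Hol F m → Hol (fun y => d1 F y * τ y) m

theorem HolVec.pair {τ θ : M → ℂ} (hτ : HolVec τ) (hθ : HolForm θ) (x y : M) :
    θ x * τ x = θ y * τ y := by
  refine hol_const (F := fun y => θ y * τ y) (fun m => ?_) x y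
  have he := chart_mem_atlas ℂ m
  have hm := mem_chart_source ℂ m
  refine ((hol_coef hθ (hol_chart he hm) (d1_chart_ne he hm)).mul
    (hτ _ m (hol_chart he hm))).congr ?_
  filter_upwards [(chartAt ℂ m).open_source.mem_nhds hm] with t ht
  have := d1_chart_ne he ht
  field_simp

theorem HolVec.zero_of {τ θ : M → ℂ} (hτ : HolVec τ) (hθ : HolForm θ) {x : M} (hx : θ x ≠ 0)
    {y : M} (hy : θ y * τ y = 0) (m : M) : τ m = 0 := by
  by_contra h
  have he := chart_mem_atlas ℂ m
  have hm := mem_chart_source ℂ m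
  refine hx (form_zero hθ (m₀ := m) ?_ x)
  filter_upwards [(hτ _ m (hol_chart he hm)).self.continuousAt.eventually_ne
    (mul_ne_zero (d1_chart_ne he hm) h)] with t ht
  exact (mul_eq_zero.1 ((hτ.pair hθ t y).trans hy)).resolve_right (right_ne_zero_of_mul ht)

/-- a vector field on the sphere with three zeros vanishes -/
theorem HolVec.zero_of_pole {τ : M → ℂ} (hτ : HolVec τ) (h : Pole f G a) {x y : M} (hx : x ≠ a)
    (hy : y ≠ a) (hxy : x ≠ y) (h0 : τ a = 0) (h1 : τ x = 0) (h2 : τ y = 0) (m : M) : τ m = 0 := by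
  by_cases hm : m = a
  · rwa [hm]
  obtain ⟨K, b1, -, b3⟩ := hol_div (hτ G a h.hG) h.hG h.G1
  obtain ⟨c, d, e⟩ := pole_lin h (F := fun y => d1 f y * τ y) (fun m hm => hτ f m (h.hf m hm))
    b1.neg (by
      filter_upwards [mem_nhdsWithin_of_mem_nhds b3, pole_dG h, pole_mul h, h.G_ne] with t c1 c2 c3 c4
      rw [h0, h.G0, c2] at c1
      refine mul_left_cancel₀ (pow_ne_zero 2 c4) ?_
      linear_combination -c1 + G t * K t * c3)
  have e1 := e x hx
  have e2 := e y hy
  rw [h1, mul_zero] at e1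
  rw [h2, mul_zero] at e2
  have hc : c = 0 := (mul_eq_zero.1 (show c * (f x - f y) = 0 by linear_combination e2 - e1)).resolve_right
    (sub_ne_zero.2 fun g => hxy (pole_inj h hx hy g))
  have e3 := e m hm
  rw [hc, zero_mul, zero_add] at e1 e3
  exact (mul_eq_zero.1 (e3.trans e1.symm)).resolve_left (pole_d1 h hm)

end Vale.Agent.P269CS
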