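import Vale.Agent.P269CS.Bpf
import Vale.Agent.P273SD.Fh
import Vale.Agent.P269C.Defs

/-!
# A smooth fibre of a family of stable curves is a compact Riemann surface
-/

set_option linter.unusedSectionVars false

open scoped Topology Manifold ContDiff
open Set Filter Asymptotics

noncomputable section

namespace Vale.Agent.P269CS

open Vale.Agent.P247C Vale.Agent.P247C.RT Vale.Agent.P247C.RSp Vale.Agent.P247B
open Vale.Agent.P273.H183 Vale.Agent.P273.H948
open Vale.Agent.P273SD (Mod Pc HolF FIso)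
open Vale.Agent.P269C (nf FH Co Dr Df Om Bas Iso)

variable {L L' : Type} {m m' : ℕ}

/-- The fibre of the stable family `C` over `b` is smooth. -/
structure Smo (C : Fam L m) (b : Fin m → ℂ) : Prop where
  st : C.IsStable
  mem : b ∈ C.B
  sm : ∀ p ∈ C.fib b, P273SD.Sm C p

/-- chart data -/
structure CD (C : Fam L m) where
  /-- the domain -/
  U : Set C.X
  /-- the first coordinate -/
  u : C.X → ℂ
  /-- the second coordinate -/
  v : C.X → ℂ
  /-- the parameter -/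
  t : (Fin m → ℂ) → ℂ
  md : Mod C U u v t

variable {C : Fam L m} {b : Fin m → ℂ}

theorem Smo.ne (h : Smo C b) : Nonempty C.X :=
  ⟨(h.st.2.2.2.2.2 b h.mem).1.nonempty.some⟩

/-- the fibre -/
def Fb (_ : Smo C b) : Type := C.fib b

variable {h : Smo C b}

instance : TopologicalSpace (Fb h) := inferInstanceAs (TopologicalSpace (C.fib b))

instance : T2Space (Fb h) := haveI := h.st.2.1; inferInstanceAs (T2Space (C.fib b))

instance : CompactSpace (Fb h) := isCompact_iff_compactSpace.1 (P273SD.isCompact_fib h.st h.mem)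

instance : ConnectedSpace (Fb h) := isConnected_iff_connectedSpace.1 (h.st.2.2.2.2.2 b h.mem).1

theorem pi_val (p : Fb h) : C.π p.1 = b := p.2

theorem map_val (p : Fb h) : map (fun q : Fb h => q.1) (𝓝 p) = 𝓝[C.fib b] p.1 :=
  map_nhds_subtype_val (s := C.fib b) p

theorem nf_val (p : Fb h) : nf C p.1 = map (fun q : Fb h => q.1) (𝓝 p) := by
  rw [map_val, nf, pi_val]

theorem cont_val : Continuous fun q : Fb h => q.1 := continuous_subtype_val

theorem cont_of_val {σ : ℂ → Fb h} {z : ℂ} (hσ : ContinuousAt (fun w => (σ w).1) z) :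
    ContinuousAt σ z := (Topology.IsInducing.subtypeVal (t := C.fib b)).continuousAt_iff.2 hσ

/-- the branch parametrisation -/
def CD.P (d : CD C) (h : Smo C b) (z : ℂ) : C.X := haveI := h.ne; Pc C d.U d.u d.v d.t b z

theorem CD.P_self (d : CD C) {q : Fb h} (h1 : q.1 ∈ d.U) (h2 : d.u q.1 ≠ 0) :
    d.P h (d.u q.1) = q.1 := by
  have := h.ne
  have e := P273SD.Pc_self d.md h1 (absurd · h2)
  rwa [pi_val] at e

/-- the target of a chart -/
def CD.T (d : CD C) (h : Smo C b) : Set ℂ :=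
  {z | z ≠ 0 ∧ d.P h z ∈ d.U ∧ C.π (d.P h z) = b ∧ d.u (d.P h z) = z}

theorem CD.T_open (d : CD C) : IsOpen (d.T h) := by
  have := h.ne
  refine isOpen_iff_mem_nhds.2 fun z ⟨a1, a2, a3, a4⟩ => ?_
  have e := P273SD.ev_br d.md a2 (absurd · (a4.symm ▸ a1))
  rw [a3, a4] at e
  filter_upwards [e, isOpen_ne.mem_nhds a1] with w b1 b2 using ⟨b2, b1.1, b1.2.1, b1.2.2.1⟩

theorem CD.holF (d : CD C) {z : ℂ} (hz : z ∈ d.T h) : HolF C b (d.P h) z := by
  have := h.ne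
  have e := P273SD.holF_br d.md hz.2.1 (absurd · (hz.2.2.2.symm ▸ hz.1))
  rwa [hz.2.2.1, hz.2.2.2] at e

open Classical in
/-- the inverse of a chart -/
def CD.inv (d : CD C) (p₀ : Fb h) (z : ℂ) : Fb h :=
  if hz : C.π (d.P h z) = b then ⟨_, hz⟩ else p₀

theorem CD.inv_val (d : CD C) (p₀ : Fb h) {z : ℂ} (hz : z ∈ d.T h) : (d.inv p₀ z).1 = d.P h z :=
  congrArg (fun q : Fb h => q.1) (dif_pos hz.2.2.1)

theorem CD.holF_inv (d : CD C) (p₀ : Fb h) {z : ℂ} (hz : z ∈ d.T h) :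
    HolF C b (fun w => (d.inv p₀ w).1) z :=
  (d.holF hz).congr (eventually_of_mem (d.T_open.mem_nhds hz) fun _ hw => (d.inv_val p₀ hw).symm)

theorem CD.map_src (d : CD C) {q : Fb h} (h1 : q.1 ∈ d.U) (h2 : d.u q.1 ≠ 0) : d.u q.1 ∈ d.T h := by
  refine ⟨h2, ?_⟩
  rw [d.P_self h1 h2]
  exact ⟨h1, q.2, rfl⟩

/-- the chart of the fibre -/
def CD.ch (d : CD C) (p₀ : Fb h) : OpenPartialHomeomorph (Fb h) ℂ where
  toFun q := d.u q.1
  invFun := d.inv p₀
  source := {q | q.1 ∈ d.U ∧ d.u q.1 ≠ 0}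
  target := d.T h
  map_source' _ hq := d.map_src hq.1 hq.2
  map_target' z hz := by
    rw [mem_ofPred_eq, d.inv_val p₀ hz, hz.2.2.2]
    exact ⟨hz.2.1, hz.1⟩
  left_inv' q hq := Subtype.ext ((d.inv_val p₀ (d.map_src hq.1 hq.2)).trans (d.P_self hq.1 hq.2))
  right_inv' z hz := by rw [d.inv_val p₀ hz, hz.2.2.2]
  open_source := isOpen_iff_mem_nhds.2 fun q hq => (cont_val.tendsto q).eventually
    (Filter.Eventually.and (d.md.isOpen.mem_nhds hq.1) ((d.md.cont_u hq.1).eventually_ne hq.2))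
  open_target := d.T_open
  continuousOn_toFun q hq :=
    ((d.md.cont_u hq.1).comp (f := fun q : Fb h => q.1) cont_val.continuousAt).continuousWithinAt
  continuousOn_invFun z hz :=
    (cont_of_val (d.holF_inv p₀ hz).cont).continuousWithinAt

theorem exists_cd (p : Fb h) : ∃ d : CD C, p.1 ∈ d.U ∧ d.u p.1 ≠ 0 := by
  obtain ⟨U, u, v, t, a1, a2, a3⟩ := h.sm p.1 p.2
  exact ⟨⟨U, u, v, t, a2⟩, a1, a3⟩

/-- the preferred chart -/
def cd (p : Fb h) : CD C := (exists_cd p).choose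

instance : ChartedSpace ℂ (Fb h) where
  atlas := {e | ∃ (d : CD C) (p : Fb h), e = d.ch p}
  chartAt p := (cd p).ch p
  mem_chart_source p := (exists_cd p).choose_spec
  chart_mem_atlas _ := ⟨_, _, rfl⟩

instance : IsManifold 𝓘(ℂ) 1 (Fb h) := by
  refine isManifold_of_contDiffOn _ _ _ ?_
  rintro _ _ ⟨d, p, rfl⟩ ⟨d', p', rfl⟩ z ⟨hz, -⟩
  exact ((d.holF_inv p hz.1).an_u d'.md hz.2.1).contDiffAt.contDiffWithinAt

theorem hol_cd (p : Fb h) : C.hol (cd p).u p.1 := (cd p).md.hol_u (exists_cd p).choose_spec.1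

theorem d1_cd (p : Fb h) : d1 (fun q : Fb h => (cd p).u q.1) p = 1 := d1_chart p

theorem fh_val {F : C.X → ℂ} {p : Fb h} : FH C F p.1 ↔ P273SD.FH C b F p.1 :=
  iff_of_eq (congrArg (fun x => P273SD.FH C x F p.1) (pi_val p))

theorem hol_of_fh {F : C.X → ℂ} {p : Fb h} (hF : FH C F p.1) : Hol (fun q : Fb h => F q.1) p :=
  hol_of_an (((cd p).holF_inv p (mem_chart_target ℂ p)).fh (F := F) (by
    rw [show (cd p).inv p (chartAt ℂ p p) = p from (ch_facts p).2.1]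
    exact fh_val.1 hF))

theorem fh_of_hol {F : C.X → ℂ} {p : Fb h} (hF : Hol (fun q : Fb h => F q.1) p) : FH C F p.1 := by
  have := h.ne
  have hp := (exists_cd p).choose_spec
  refine P273SD.fh_smooth (cd p).md hp.1 hp.2 ?_
  rw [pi_val]
  refine (hF.an (chart_mem_atlas ℂ p) (mem_chart_source ℂ p)).congr ?_
  filter_upwards [(cd p).T_open.mem_nhds (mem_chart_target ℂ p)] with z hz
  exact congrArg F ((cd p).inv_val p hz)

theorem hol_of_hol {F : C.X → ℂ} {p : Fb h} (hF : C.hol F p.1) : Hol (fun q : Fb h => F q.1) p :=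
  hol_of_fh ⟨F, hF, .rfl⟩

/-- extension by zero -/
def ex (G : Fb h → ℂ) : C.X → ℂ := Function.extend (fun q : Fb h => q.1) G 0

theorem ex_val (G : Fb h → ℂ) (q : Fb h) : ex G q.1 = G q :=
  Subtype.val_injective.extend_apply G 0 q

theorem exists_hol {G : Fb h → ℂ} {p : Fb h} (hG : Hol G p) :
    ∃ g, C.hol g p.1 ∧ ∀ᶠ q in 𝓝 p, G q = g q.1 := by
  obtain ⟨g, a1, a2⟩ := fh_of_hol (F := ex G) (p := p) (by simpa only [ex_val] using hG)
  rw [nf_val] at a2
  exact ⟨g, a1, (eventually_map.1 a2).mono fun q hq => (ex_val G q).symm.trans hq⟩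

theorem d1_ne_of_inj {M : Type} [TopologicalSpace M] [ChartedSpace ℂ M] [IsManifold 𝓘(ℂ) 1 M]
    {F : M → ℂ} {p : M} (hF : Hol F p) {V : Set M} (hV : V ∈ 𝓝 p) (hi : InjOn F V) :
    d1 F p ≠ 0 := fun h0 => by
  have he := chart_mem_atlas ℂ p
  have hp := mem_chart_source ℂ p
  obtain ⟨w, y, a1, a2, a3⟩ := (hF.opn (fun c => (hol_chart he hp).not_const (d1_chart_ne he hp)
    (chartAt ℂ p p) ((c.and hV).mono fun y hy => by
      rw [hi hy.2 (mem_of_mem_nhds hV) hy.1])) hV).exists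
  obtain ⟨y', b1, b2, b3⟩ := a3 h0
  exact b3 (hi a1 b1 (a2.trans b2.symm))

theorem co_iff {z : C.X → ℂ} {p : Fb h} :
    Co C z p.1 ↔ Hol (fun q : Fb h => z q.1) p ∧ d1 (fun q : Fb h => z q.1) p ≠ 0 := by
  constructor
  · rintro ⟨a1, U, a2, a3⟩
    rw [nf_val] at a2
    exact ⟨hol_of_fh a1, d1_ne_of_inj (hol_of_fh a1) a2 fun x hx y hy e => Subtype.ext (a3 hx hy e)⟩
  · rintro ⟨a1, a2⟩
    obtain ⟨γ, -, -, a3⟩ := a1.inverse a2
    refine ⟨fh_of_hol a1, (fun q : Fb h => q.1) '' {q | γ (z q.1) = q}, ?_, ?_⟩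
    · rw [nf_val]
      exact image_mem_map a3
    · rintro _ ⟨x, hx, rfl⟩ _ ⟨y, hy, rfl⟩ e
      exact congrArg Subtype.val (hx.symm.trans ((congrArg γ e).trans hy))

theorem co_cd (p : Fb h) : Co C (cd p).u p.1 :=
  co_iff.2 ⟨hol_of_hol (hol_cd p), by rw [d1_cd]; exact one_ne_zero⟩

theorem co_ev {z : C.X → ℂ} {p : Fb h} (hz : Co C z p.1) : ∀ᶠ q in 𝓝 p, Co C z q.1 := by
  obtain ⟨a1, a2⟩ := co_iff.1 hz
  filter_upwards [a1.ev, ev_d1 a1 a2] with q b1 b2 using co_iff.2 ⟨b1, b2⟩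

theorem dr_iff {f z : C.X → ℂ} {p : Fb h} {c : ℂ} (hz : Co C z p.1) (hf : FH C f p.1) :
    Dr C f z p.1 c ↔ d1 (fun q : Fb h => f q.1) p = c * d1 (fun q : Fb h => z q.1) p := by
  obtain ⟨a1, a2⟩ := co_iff.1 hz
  obtain ⟨K, b1, b2, b3⟩ := hol_div (hol_of_fh hf) a1 a2
  have e : (fun q : Fb h => f q.1 - f p.1 - c * (z q.1 - z p.1)) =ᶠ[𝓝 p]
      fun q => (K q - c) * (z q.1 - z p.1) := b3.mono fun q hq => by linear_combination hq
  rw [Dr, nf_val, isLittleO_map, ← b2, mul_left_inj' a2]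
  refine (isLittleO_congr e .rfl).trans ⟨fun H => ?_, fun H => ?_⟩
  · by_contra hne
    have h0 : 0 < ‖K p - c‖ / 2 := half_pos (norm_pos_iff.2 (sub_ne_zero.2 hne))
    have h1 : ∀ᶠ q in 𝓝 p, ‖K p - c‖ / 2 < ‖K q - c‖ :=
      ((b1.self.continuousAt.sub continuousAt_const).norm).eventually
        (lt_mem_nhds (half_lt_self (norm_pos_iff.2 (sub_ne_zero.2 hne))))
    refine a1.not_const a2 (z p.1) ?_
    filter_upwards [H.bound h0, h1] with q c1 c2
    by_contra c3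
    rw [norm_mul] at c1
    exact (le_of_mul_le_mul_right c1 (norm_pos_iff.2 (sub_ne_zero.2 c3))).not_gt c2
  · have h1 : (fun q => K q - c) =o[𝓝 p] fun _ => (1 : ℂ) := by
      rw [isLittleO_one_iff, ← sub_self c]
      nth_rewrite 2 [← H]
      exact b1.self.continuousAt.tendsto.sub tendsto_const_nhds
    exact (h1.mul_isBigO (isBigO_refl (fun q : Fb h => z q.1 - z p.1) _)).congr_right
      fun _ => one_mul _

/-! ### holomorphic maps -/

theorem holAt_of {σ : ℂ → Fb h} {z : ℂ} (hσ : HolF C b (fun w => (σ w).1) z) : HolAt σ z := by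
  have hc : ContinuousAt σ z := cont_of_val hσ.cont
  have a1 : AnalyticAt ℂ (fun w => chartAt ℂ (σ z) (σ w)) z := hσ.an _ (hol_cd (σ z))
  have a2 := (ch_facts (σ z)).1.comp (ζ := fun w => chartAt ℂ (σ z) (σ w)) a1
  have e : σ =ᶠ[𝓝 z] (chartAt ℂ (σ z)).symm ∘ fun w => chartAt ℂ (σ z) (σ w) :=
    (hc.eventually ((chartAt ℂ (σ z)).eventually_left_inverse (mem_chart_source ℂ _))).mono
      fun _ hw => hw.symm
  filter_upwards [a2, e.eventually_nhds] with w b1 b2 using b1.congr_of_eventuallyEq b2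

theorem holF_of {σ : ℂ → Fb h} {z : ℂ} (hσ : HolAt σ z) : HolF C b (fun w => (σ w).1) z :=
  ⟨cont_val.continuousAt.comp hσ.self.continuousAt, Eventually.of_forall fun w => (σ w).2,
    fun _ hf => an_of_hol hσ (hol_of_hol hf)⟩

theorem iso_of_fiso {C' : Fam L m'} {b' : Fin m' → ℂ} (hC : C.IsStable) (hC' : C'.IsStable)
    (hb : b ∈ C.B) (hb' : b' ∈ C'.B) {φ : C.X → C'.X} (hφ : FIso C b C' b' φ) :
    (fun p : C.fib b => φ p) ∈ Iso C b C' b' := by
  obtain ⟨ψ, h1, h2⟩ := hφ.symm hC hC' hb hb'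
  refine ⟨hφ.cont.domRestrict, fun p q e => Subtype.ext (hφ.bij.injOn p.2 q.2 e),
    (range_domRestrict φ _).trans hφ.bij.image_eq, fun i p e => (congrArg φ e).trans (hφ.mark i), fun p f f' e => ?_⟩
  have e1 : C.π p.1 = b := p.2
  have e2 : C'.π (φ p) = b' := hφ.bij.mapsTo p.2
  change P273SD.FH C (C.π p.1) f p.1 ↔ P273SD.FH C' (C'.π (φ p)) f' (φ p)
  rw [e1, e2]
  refine ⟨fun H => (h1.fh e2 (F := f) ((h2.1 p.2).symm ▸ H)).congr ?_,
    fun H => (hφ.fh p.2 H).congr ?_⟩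
  · filter_upwards [self_mem_nhdsWithin] with q hq
    exact ((e ⟨_, h1.bij.mapsTo hq⟩).trans (congrArg f' (h2.2 hq))).symm
  · filter_upwards [self_mem_nhdsWithin] with q hq using e ⟨q, hq⟩

variable {C' : Fam L m'} {b' : Fin m' → ℂ} {h' : Smo C' b'}

/-- the marked points -/
def mk (h : Smo C b) (i : L) : Fb h := ⟨C.s i b, ((h.st.2.2.2.2.2 b h.mem).2.1 i).1⟩

theorem mk_inj : Function.Injective (mk h) := fun i j e =>
  ((h.st.2.2.2.2.2 b h.mem).2.1 i).2.2.2.1 j (congrArg Subtype.val e)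

theorem iso_of {φ : Fb h → Fb h'} (h1 : MDifferentiable 𝓘(ℂ) 𝓘(ℂ) φ) (h2 : Function.Bijective φ)
    (h3 : ∀ i, φ (mk h i) = mk h' i) : (fun p : C.fib b => (φ p).1) ∈ Iso C b C' b' := by
  have := h'.ne
  let Φ : C.X → C'.X := Function.extend (fun q : Fb h => q.1) (fun q => (φ q).1)
    fun _ => Classical.arbitrary _
  have e : ∀ q : Fb h, Φ q.1 = (φ q).1 := fun q => Subtype.val_injective.extend_apply _ _ q
  have key : FIso C b C' b' Φ := by
    refine ⟨⟨fun p hp => (e ⟨p, hp⟩).symm ▸ (φ ⟨p, hp⟩).2, fun p hp q hq g => ?_, fun q hq => ?_⟩,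
      continuousOn_iff_continuous_domRestrict.2 ?_, fun p hp f hf => ?_, fun i => ?_⟩
    · exact congrArg Subtype.val (h2.1 (Subtype.ext
        ((e ⟨p, hp⟩).symm.trans (g.trans (e ⟨q, hq⟩)))) : (⟨p, hp⟩ : Fb h) = ⟨q, hq⟩)
    · obtain ⟨p, hp⟩ := h2.2 ⟨q, hq⟩
      exact ⟨p.1, p.2, (e p).trans (congrArg Subtype.val hp)⟩
    · exact (cont_val.comp h1.continuous).congr fun q => (e q).symm
    · refine (fh_val (h := h) (p := ⟨p, hp⟩)).1 (fh_of_hol (h := h) ?_)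
      simp only [e]
      exact (h1.continuous.continuousAt.eventually (hol_of_hol (p := φ ⟨p, hp⟩)
        (e ⟨p, hp⟩ ▸ hf))).mono fun q hq => hq.comp q (h1 q)
    · exact (e (mk h i)).trans (congrArg Subtype.val (h3 i))
  exact funext e ▸ iso_of_fiso h.st h'.st h.mem h'.mem key

theorem of_iso {Φ : C.fib b → C'.X} (hΦ : Φ ∈ Iso C b C' b') : ∃ φ : Fb h → Fb h',
    MDifferentiable 𝓘(ℂ) 𝓘(ℂ) φ ∧ Function.Bijective φ ∧ (∀ i, φ (mk h i) = mk h' i) ∧
      ∀ p, (φ p).1 = Φ p := by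
  obtain ⟨a1, a2, a3, a4, a5⟩ := hΦ
  let φ : Fb h → Fb h' := fun p => ⟨Φ p, a3.subset (mem_range_self _)⟩
  have hc : Continuous φ := a1.subtype_mk _
  refine ⟨φ, fun p => ?_, ⟨fun p q e => a2 (congrArg Subtype.val e), fun q => ?_⟩,
    fun i => Subtype.ext (a4 i _ rfl), fun _ => rfl⟩
  · have b1 : Hol (fun q => chartAt ℂ (φ p) (φ q)) p := by
      simpa only [ex_val] using hol_of_fh ((a5 p (ex fun q => chartAt ℂ (φ p) (φ q)) (cd (φ p)).u
        (ex_val _)).2 ⟨_, hol_cd (φ p), .rfl⟩)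
    exact ((ch_facts (φ p)).1.self.comp p b1.self).congr_of_eventuallyEq
      ((hc.continuousAt.eventually ((chartAt ℂ (φ p)).eventually_left_inverse
        (mem_chart_source ℂ _))).mono fun _ hw => hw.symm)
  · obtain ⟨p, hp⟩ := a3.superset q.2
    exact ⟨p, Subtype.ext hp⟩

end Vale.Agent.P269CS
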